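import Crest.Agent.N250.FV.Ch
import Crest.Agent.N250.Re.Ring
import Crest.Agent.N250.GB.Asm
import Crest.Agent.N250.Master
import Crest.Agent.N250.T.Stm
import Crest.Agent.N250.Or.Had
import Crest.Agent.N250.Re.Basic
import Mathlib
import Crest.Prelude.Def_MeanCurvatureFlow
import Crest.Agent.N250.Re.Comm
import Crest.Agent.N250.T.Gau
import Crest.Agent.N250.Br.Sc
import Crest.Agent.N250.MP.Avoid
import Crest.Agent.N250.Tr.Base

-- ▼ part N250/GB/Sl
section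

/-!
# Row 250 (helper69): a time slice of a track as an immersed surface `N222.Imm`
-/

set_option autoImplicit false
open MeasureTheory Set Filter Topology Function
open scoped ContDiff InnerProductSpace
open Crest.GeometryTopology.MCF
open ContinuousLinearMap (adjoint inl)

noncomputable section

namespace Crest.Agent.N250.GB.Sl

open FV N222

variable {F : Mv} {t : ℝ}

/-- the chart of a slice -/
def chart {X : E2 × ℝ → E} {U : Set (E2 × ℝ)} {W : Set ST} {L : E →L[ℝ] E2} (h : Ch F X U W L)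
    (p : F.sl t) : OpenPartialHomeomorph (F.sl t) E2 := by
  classical
  exact
  { toFun q := L q.1
    invFun z := if hz : (z, t) ∈ U then ⟨X (z, t), h.mem _ hz⟩ else p
    source := {q | (q.1, t) ∈ W}
    target := {z | (z, t) ∈ U}
    map_source' q hq := h.inU (q.1, t) q.2 hq
    map_target' z hz := by
      have hz' : (z, t) ∈ U := hz
      simp only [mem_ofPred_eq, dif_pos hz']
      exact h.memW _ hz'
    left_inv' q hq := by
      have hz' : (L q.1, t) ∈ U := h.inU (q.1, t) q.2 hq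
      simp only [dif_pos hz']
      exact Subtype.ext (h.right (q.1, t) q.2 hq)
    right_inv' z hz := by
      have hz' : (z, t) ∈ U := hz
      simp only [dif_pos hz']
      exact h.left _ hz'
    open_source := (h.oWt t).preimage continuous_subtype_val
    open_target := h.oUt t
    continuousOn_toFun := (L.continuous.comp continuous_subtype_val).continuousOn
    continuousOn_invFun := by
      rw [IsInducing.subtypeVal.continuousOn_iff]
      refine (h.sm.continuousOn.comp (Continuous.prodMk_left t).continuousOn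
        fun z hz => hz).congr fun z hz => ?_
      have hz' : (z, t) ∈ U := hz
      simp only [comp_apply, dif_pos hz'] }

theorem isChart {X : E2 × ℝ → E} {U : Set (E2 × ℝ)} {W : Set ST} {L : E →L[ℝ] E2}
    (h : Ch F X U W L) (p : F.sl t) : IsChart Subtype.val (chart h p) := by
  have e : ∀ z ∈ (chart h p).target, (Subtype.val ∘ (chart h p).symm) z = X (z, t) := fun z hz => by
    have hz' : (z, t) ∈ U := hz
    change ((chart h p).invFun z).1 = _
    simp only [chart, dif_pos hz']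
  refine ⟨(h.sm.comp (contDiff_id.prodMk contDiff_const).contDiffOn fun z hz => hz).congr e,
    fun z hz => ?_⟩
  have h1 := ((h.hasXt t z hz).hasFDerivAt ((h.oUt t).mem_nhds hz)).congr_of_eventuallyEq
    (eventually_of_mem ((chart h p).open_target.mem_nhds hz) e)
  rw [h1.fderiv]
  exact h.inj hz

/-- slices are immersed surfaces -/
theorem exists_imm (hF : F.Reg) (t : ℝ) : ∃ M : Imm 2 (Fin 3) (F.sl t), M.x = Subtype.val := by
  have := fun p : F.sl t => exists_ch hF (p := (p.1, t)) p.2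
  choose X U W L h1 h2 using this
  exact ⟨⟨Subtype.val, fun p => chart (h2 p) p, h1, fun p => isChart (h2 p) p⟩, rfl⟩

variable {M : Imm 2 (Fin 3) (F.sl t)}

section
variable {G : Type} [NormedAddCommGroup G] [NormedSpace ℝ G] {f : ST → G}

theorem sm (hx : M.x = Subtype.val) (hf : F.Sm f) : M.Sm fun q => f (q.1, t) := fun p => by
  have h := (M.isChart p).sm
  rw [hx] at h
  exact ContDiffOn.comp (f := fun z => ((Subtype.val ∘ (M.ch p).symm) z, t)) hf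
    (h.prodMk contDiffOn_const) fun z _ => ((M.ch p).symm z).2

theorem hasF (hx : M.x = Subtype.val) (p : F.sl t)
    (hf : DifferentiableWithinAt ℝ f F.M (p.1, t)) :
    HasFDerivAt ((fun q : F.sl t => f (q.1, t)) ∘ (M.ch p).symm)
      ((F.td f (p.1, t)).comp ((M.J p).prod 0)) (M.ch p p) := by
  have h1 : HasFDerivAt (M.x ∘ (M.ch p).symm) (M.J p) (M.ch p p) := (M.sm_x.diffAt p).hasFDerivAt
  have h2 := h1.prodMk (hasFDerivAt_const t _)
  have h3 := hf.hasFDerivWithinAt.comp_hasFDerivAt_of_eq _ h2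
    (.of_forall fun z => by rw [hx]; exact ((M.ch p).symm z).2)
    (by rw [comp_apply, (M.ch p).left_inv (M.mem p), hx])
  rw [hx] at h3
  exact h3

theorem td_eq (hx : M.x = Subtype.val) (p : F.sl t)
    (hf : DifferentiableWithinAt ℝ f F.M (p.1, t)) (w : E) :
    M.td (fun q => f (q.1, t)) p w = F.td f (p.1, t) (M.PL p w, 0) := by
  rw [Imm.td, (hasF hx p hf).fderiv]
  rfl

end

theorem n_J (hF : F.Reg) (hx : M.x = Subtype.val) (p : F.sl t) (v : E2) :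
    ⟪F.n (p.1, t), M.J p v⟫_ℝ = 0 := by
  obtain ⟨W, φ, hW, k⟩ := hF (p.1, t) p.2
  have h1 : HasFDerivAt (M.x ∘ (M.ch p).symm) (M.J p) (M.ch p p) := (M.sm_x.diffAt p).hasFDerivAt
  have h2 := h1.prodMk (hasFDerivAt_const t _)
  have e : ((M.x ∘ (M.ch p).symm) (M.ch p p), t) = (p.1, t) := by
    rw [comp_apply, (M.ch p).left_inv (M.mem p), hx]
  have h3' := (k.diffAt hW).hasFDerivAt
  have h3 := HasFDerivAt.comp (M.ch p p) (g := φ) (g' := fderiv ℝ φ (p.1, t)) (by rwa [e]) h2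
  have h4 : HasFDerivAt (φ ∘ fun z => ((M.x ∘ (M.ch p).symm) z, t)) (0 : E2 →L[ℝ] ℝ)
      (M.ch p p) := by
    refine (hasFDerivAt_const (0 : ℝ) _).congr_of_eventuallyEq ?_
    filter_upwards [h2.continuousAt.eventually_mem (k.isOpen.mem_nhds (e ▸ hW))] with z hz
    refine (k.mem _ hz).1 ?_
    rw [hx]
    exact ((M.ch p).symm z).2
  have h5 : fderiv ℝ φ (p.1, t) (M.J p v, 0) = 0 :=
    congrArg (fun T : E2 →L[ℝ] ℝ => T v) (h3.unique h4)
  simpa [Mv.Tg] using (k.tg_iff hW p.2).2 h5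

theorem PL_eq (hF : F.Reg) (hx : M.x = Subtype.val) (p : F.sl t) (w : E) :
    M.PL p w = F.PL (p.1, t) w := by
  have hM : ((p.1, t) : ST) ∈ F.M := p.2
  have hn : F.n (p.1, t) ≠ 0 := fun h0 => by simpa [h0] using hF.norm_n hM
  have h1 : LinearMap.range (M.J p : E2 →ₗ[ℝ] E) = (ℝ ∙ F.n (p.1, t))ᗮ := by
    refine Submodule.eq_of_le_of_finrank_eq ?_ ?_
    · rintro _ ⟨v, rfl⟩
      exact Submodule.mem_orthogonal_singleton_iff_inner_right.2 (n_J hF hx p v)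
    · rw [finrank_perp hn, LinearMap.finrank_range_of_inj (M.J_inj p)]; simp
  obtain ⟨u, hu⟩ : F.PL (p.1, t) w ∈ LinearMap.range (M.J p : E2 →ₗ[ℝ] E) :=
    h1 ▸ Submodule.mem_orthogonal_singleton_iff_inner_right.2 (Tr.n_PL hF hM w)
  have hu' : M.J p u = F.PL (p.1, t) w := hu
  have h2 : adjoint (Lam (M.J p)) w = u := by
    have e : w = M.J p u + ⟪F.n (p.1, t), w⟫_ℝ • F.n (p.1, t) := by rw [hu', Mv.PL]; simp
    rw [e, map_add, map_smul, adj_Lam_apply (M.J_inj p),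
      adj_Lam_eq_zero fun v => by rw [real_inner_comm, n_J hF hx]]
    simp
  rw [M.PL_eq, h2, hu']

/-- the tangential derivatives agree -/
theorem D_eq (hF : F.Reg) (hx : M.x = Subtype.val) (p : F.sl t) {f : ST → ℝ}
    (hf : DifferentiableWithinAt ℝ f F.M (p.1, t)) (a : Fin 3) :
    M.pre.D a (fun q => f (q.1, t)) p = F.D a f (p.1, t) := by
  rw [Mv.D_apply, ← PL_eq hF hx, ← td_eq hx p hf]
  rfl

theorem P_eq (hF : F.Reg) (hx : M.x = Subtype.val) (p : F.sl t) (a b : Fin 3) :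
    M.pre.P a b p = (if a = b then 1 else 0) - F.nu a (p.1, t) * F.nu b (p.1, t) := by
  rw [M.P_apply, PL_eq hF hx, ← Mv.PL_ee]

theorem II_eq (hF : F.Reg) (hx : M.x = Subtype.val) (p : F.sl t) (a b c : Fin 3) :
    M.pre.II a b c p = -(F.A a b (p.1, t) * F.nu c (p.1, t)) := by
  have hM : ((p.1, t) : ST) ∈ F.M := p.2
  have hs' := fun e => sm hx (hF.sm_nu e)
  have hs := fun e => (hs' e).diffAt p
  have h1 : ∀ e, M.pre.D a (M.pre.D e (M.pre.x c)) p =
      -(F.nu e (p.1, t) * F.A a c (p.1, t) + F.A a e (p.1, t) * F.nu c (p.1, t)) := fun e => by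
    rw [show M.pre.D e (M.pre.x c) = _ from funext fun q => P_eq hF hx q e c,
      Imm.D_sub ((Imm.sm_const _).diffAt p) (((hs' e).mul (hs' c)).diffAt p), Imm.D_const,
      Imm.D_mul (hs e) (hs c), D_eq hF hx p ((hF.sm_nu e).diffW hM),
      D_eq hF hx p ((hF.sm_nu c).diffW hM), zero_sub]
    rfl
  have h2 := hF.nn hM
  have h3 : ∑ e, F.nu e (p.1, t) * F.A a e (p.1, t) = 0 := by
    simp only [hF.A_symm hM a]
    exact hF.n_D hM _
  rw [Pre.II, Imm.hess_apply]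
  simp only [h1, P_eq hF hx, sub_mul, Finset.sum_sub_distrib, ite_mul, one_mul, zero_mul,
    Finset.sum_ite_eq, Finset.mem_univ, if_true]
  simp only [Fin.sum_univ_three] at h2 h3 ⊢
  linear_combination F.nu b (p.1, t) * F.A a c (p.1, t) * h2 + F.nu b (p.1, t) * F.nu c (p.1, t) * h3

theorem a2_eq (hF : F.Reg) (hx : M.x = Subtype.val) (p : F.sl t) : a2 M p = F.A2 (p.1, t) := by
  have h2 := hF.nn (p := (p.1, t)) p.2
  simp only [a2, II_eq hF hx, Mv.A2, Finset.sum_apply, Pi.mul_apply]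
  refine Finset.sum_congr rfl fun a _ => Finset.sum_congr rfl fun b _ => ?_
  simp only [Fin.sum_univ_three] at h2 ⊢
  linear_combination F.A a b (p.1, t) ^ 2 * h2

theorem H_eq (hF : F.Reg) (hx : M.x = Subtype.val) (p : F.sl t) (c : Fin 3) :
    M.pre.H c p = -(F.H (p.1, t) * F.nu c (p.1, t)) := by
  have h : M.pre.H c p = ∑ a, M.pre.II a a c p := (Imm.tr_hess (M.sm_coord c) p).symm
  simp only [h, II_eq hF hx, Mv.H, Finset.sum_apply, Finset.sum_mul, Finset.sum_neg_distrib]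

theorem h2_eq (hF : F.Reg) (hx : M.x = Subtype.val) (p : F.sl t) : h2 M p = F.H (p.1, t) ^ 2 := by
  have h := hF.nn (p := (p.1, t)) p.2
  simp only [h2, H_eq hF hx, Fin.sum_univ_three] at h ⊢
  linear_combination F.H (p.1, t) ^ 2 * h

theorem scal_eq (hF : F.Reg) (hx : M.x = Subtype.val) (p : F.sl t) :
    M.pre.scal p = F.H (p.1, t) ^ 2 - F.A2 (p.1, t) := by
  rw [← h2_eq hF hx, ← a2_eq hF hx]
  have := congrArg M.val M.isDS.scal_eq
  simp only [map_sub, map_sum, map_mul, M.hom.scal, M.hom.H, M.hom.II] at this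
  simpa [h2, a2, sq] using congrFun this p

/-- the area measures agree -/
theorem map_mu (hx : M.x = Subtype.val) (hm : MeasurableSet (F.sl t)) :
    M.mu.map Subtype.val = F.mu t := by
  have he : MeasurableEmbedding M.x := hx ▸ MeasurableEmbedding.subtype_coe hm
  have h : (μHE[2] : Measure E).comap M.x = M.mu := by
    refine Imm.eq_mu fun p => ⟨M.ch p, M.isChart p, M.mem p, ?_⟩
    ext s hs
    set e := M.ch p
    have hc := M.isChart p
    rw [Measure.restrict_apply hs, he.comap_apply, Ms0.cm_apply hc hs]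
    have h1 := R241.AF.lintegral_image_eq (f := M.x ∘ e.symm) (f' := fderiv ℝ (M.x ∘ e.symm))
      (Ms0.meas_pre e hs) (fun z hz => (hc.hasFDerivAt hz.1).hasFDerivWithinAt)
      (fun z hz w hw h => e.symm.injOn hz.1 hw.1 (he.injective h)) fun _ => 1
    have h2 : (M.x ∘ e.symm) '' (e.target ∩ e.symm ⁻¹' s) = M.x '' (s ∩ e.source) := by
      rw [image_comp]
      congr 1
      ext q
      exact ⟨fun ⟨z, hz, h⟩ => h ▸ ⟨hz.2, e.map_target hz.1⟩, fun h => ⟨e q,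
        ⟨e.map_source h.2, by rw [mem_preimage, e.left_inv h.2]; exact h.1⟩, e.left_inv h.2⟩⟩
    rw [h2, finrank_euclideanSpace_fin, setLIntegral_one] at h1
    rw [h1]
    simp only [mul_one, jac_eq_normDet, R241.AF.jac]
    rfl
  rw [← h, hx, map_comap_subtype_coe hm, Mv.mu]

/-- slices are measurable -/
theorem measurableSet_sl (hF : F.Reg) (t : ℝ) : MeasurableSet (F.sl t) := by
  have ho : IsOpen (closure (F.sl t) \ F.sl t)ᶜ := by
    rw [isOpen_iff_mem_nhds]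
    intro x hx
    by_cases h : x ∈ F.sl t
    · obtain ⟨W, φ, hW, k⟩ := hF (x, t) h
      have ho : IsOpen {y | (y, t) ∈ W} := k.isOpen.preimage (Continuous.prodMk_left t)
      filter_upwards [ho.mem_nhds hW] with y hy hy'
      refine hy'.2 ((k.mem _ hy).2 ?_)
      have hc : ContinuousAt (fun y => φ (y, t)) y :=
        ContinuousAt.comp (f := fun y : E => (y, t)) (k.diffAt hy).continuousAt
          (Continuous.prodMk_left t).continuousAt
      refine isClosed_singleton.mem_of_frequently_of_tendsto ?_ hc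
      exact ((mem_closure_iff_frequently.1 hy'.1).and_eventually (ho.mem_nhds hy)).mono
        fun z hz => (k.mem _ hz.2).1 hz.1
    · have h' : x ∉ closure (F.sl t) := fun h' => hx ⟨h', h⟩
      filter_upwards [isClosed_closure.isOpen_compl.mem_nhds h'] with y hy hy'
      exact hy hy'.1
  have e : F.sl t = closure (F.sl t) ∩ (closure (F.sl t) \ F.sl t)ᶜ := by
    ext x
    exact ⟨fun h => ⟨subset_closure h, fun h' => h'.2 h⟩,
      fun h => by_contra fun h' => h.2 ⟨h.1, h'⟩⟩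
  rw [e]
  exact isClosed_closure.measurableSet.inter ho.measurableSet

theorem integral_eq (hF : F.Reg) (hx : M.x = Subtype.val) (g : E → ℝ) :
    ∫ x, g x ∂F.mu t = ∫ p, g p.1 ∂M.mu := by
  rw [← map_mu hx (measurableSet_sl hF t),
    (MeasurableEmbedding.subtype_coe (measurableSet_sl hF t)).integral_map]

theorem setLIntegral_eq (hF : F.Reg) (hx : M.x = Subtype.val) (s : Set E) (g : E → ENNReal) :
    ∫⁻ x in s, g x ∂F.mu t = ∫⁻ p in Subtype.val ⁻¹' s, g p.1 ∂M.mu := by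
  have he := MeasurableEmbedding.subtype_coe (measurableSet_sl hF t)
  rw [← map_mu hx (measurableSet_sl hF t), he.restrict_map, he.lintegral_map]

theorem mu_eq (hF : F.Reg) (hx : M.x = Subtype.val) (s : Set E) :
    F.mu t s = M.mu (Subtype.val ⁻¹' s) := by
  rw [← map_mu hx (measurableSet_sl hF t),
    (MeasurableEmbedding.subtype_coe (measurableSet_sl hF t)).map_apply]

end Crest.Agent.N250.GB.Sl

end
end

-- ▼ part N250/Br/Stm
section

/-!
# Row 250, Prelude bridge (helper37): the two inputs of `InitStmt`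
-/

set_option autoImplicit false
open MeasureTheory Set Filter Topology
open scoped ContDiff InnerProductSpace
open Crest.GeometryTopology.MCF

noncomputable section

namespace Crest.Agent.N250.Br

/-- one global defining function of the flow -/
def OrS : Prop := ∀ (M : ℝ → Set E) (T : ℝ), IsSmoothMCF M T → ∃ Φ : ST → ℝ,
  ContDiffOn ℝ ∞ Φ (univ ×ˢ Ioo 0 T) ∧ ∀ p : ST, p.2 ∈ Ioo 0 T → (p.1 ∈ M p.2 ↔ Φ p = 0) ∧
    (p.1 ∈ M p.2 → gradX Φ p.1 p.2 ≠ 0 ∧
      dT Φ p = ‖gradX Φ p.1 p.2‖ * levelSetMeanCurv Φ p.1 p.2)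

/-- local Gauss–Bonnet for bounded flows with connected slices -/
def LgbFlowS : Prop := ∀ (F : Mv) (a b Λ : ℝ), Fl F (Ioo a b) Λ →
  (∃ ρ : ℝ, ∀ p ∈ F.M, ‖p.1‖ ≤ ρ) → (∀ t ∈ Ioo a b, IsConnected (F.sl t)) → ∃ G, LGB F G

end Crest.Agent.N250.Br

end
end

-- ▼ part N250/GB/Flow
section

/-!
# Row 250 (helper69): local Gauss-Bonnet along a compact flow
-/

set_option autoImplicit false
open MeasureTheory Set Filter Topology Function
open scoped ContDiff InnerProductSpace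
open Crest.GeometryTopology.MCF

noncomputable section

namespace Crest.Agent.N250.GB

open N222

namespace Flow

variable {F : Mv} {a b Λ ρ : ℝ}

theorem track_compact (hF : Fl F (Ioo a b) Λ) (hρ : ∀ p ∈ F.M, ‖p.1‖ ≤ ρ) {K : Set ℝ}
    (hK : IsCompact K) (hs : K ⊆ Ioo a b) : IsCompact (F.M ∩ univ ×ˢ K) := by
  refine ((isCompact_closedBall (0 : E) ρ).prod hK).of_isClosed_subset ?_
    fun p hp => ⟨mem_closedBall_zero_iff.2 (hρ p hp.1), hp.2.2⟩
  refine isClosed_of_closure_subset fun p hp => ?_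
  have h1 : p ∈ univ ×ˢ K :=
    (isClosed_univ.prod hK.isClosed).closure_subset (closure_mono inter_subset_right hp)
  exact ⟨hF.proper p (closure_mono inter_subset_left hp) ⟨trivial, hs h1.2⟩, h1⟩

theorem sl_compact (hF : Fl F (Ioo a b) Λ) (hρ : ∀ p ∈ F.M, ‖p.1‖ ≤ ρ) {t : ℝ}
    (ht : t ∈ Ioo a b) : IsCompact (F.sl t) := by
  have h := (track_compact hF hρ isCompact_singleton (singleton_subset_iff.2 ht)).image
    continuous_fst
  convert h using 1
  ext x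
  exact ⟨fun hx => ⟨(x, t), ⟨hx, trivial, rfl⟩, rfl⟩, fun ⟨p, hp, e⟩ => by
    obtain ⟨y, s⟩ := p
    obtain rfl : s = t := hp.2.2
    obtain rfl : y = x := e
    exact hp.1⟩

/-- total curvature is bounded (constant) along the flow -/
theorem total (hI : IntS) (hC : MuContS) (hF : Fl F (Ioo a b) Λ) (hρ : ∀ p ∈ F.M, ‖p.1‖ ≤ ρ) :
    ∃ B : ℝ, ∀ t ∈ Ioo a b, |∫ x, (F.H (x, t) ^ 2 - F.A2 (x, t)) ∂F.mu t| ≤ B := by
  have hR := hF.mcf.1
  set k : ℝ → ℝ := fun t => ∫ x, (F.H (x, t) ^ 2 - F.A2 (x, t)) ∂F.mu t with hk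
  have h1 : ContinuousOn k (Ioo a b) := fun t ht => by
    obtain ⟨a', ha, ha'⟩ := exists_between ht.1
    obtain ⟨b', hb, hb'⟩ := exists_between ht.2
    have h := hC F hR (fun p => F.H p ^ 2 - F.A2 p) (Ioo a' b') isOpen_Ioo
      ((hR.sm_H.continuousOn.pow 2).sub hR.sm_A2.continuousOn)
      ⟨_, track_compact hF hρ isCompact_Icc (Icc_subset_Ioo ha hb'), inter_subset_left,
        fun p hp h1 h2 => absurd ⟨hp, trivial, Ioo_subset_Icc_self h1⟩ h2⟩
    exact (h.continuousAt (Ioo_mem_nhds ha' hb)).continuousWithinAt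
  have h2 : k '' Ioo a b ⊆ range fun n : ℤ => 2 * kap * n := by
    rintro _ ⟨t, ht, rfl⟩
    obtain ⟨M, hx⟩ := Sl.exists_imm hR t
    have := isCompact_iff_compactSpace.1 (sl_compact hF hρ ht)
    obtain ⟨n, hn⟩ := hI _ M
    refine ⟨n, ?_⟩
    simp only [hk, Sl.integral_eq hR hx, ← hn, Sl.scal_eq hR hx]
  have h3 := (countable_range _).isTotallyDisconnected _ h2 (isPreconnected_Ioo.image k h1)
  rcases (Ioo a b).eq_empty_or_nonempty with h | ⟨s, hs⟩
  · exact ⟨0, fun t ht => by simp [h] at ht⟩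
  · exact ⟨|k s|, fun t ht => by rw [← h3 (mem_image_of_mem k ht) (mem_image_of_mem k hs)]⟩

end Flow

theorem lgbFlowS_of (hL : LgbS) (hI : IntS) (hC : MuContS) : Br.LgbFlowS := by
  rintro F a b Λ hF ⟨ρ, hρ⟩ hcon
  obtain ⟨c, hc, hL⟩ := hL
  obtain ⟨B, hB⟩ := Flow.total hI hC hF hρ
  have hR := hF.mcf.1
  refine ⟨c * (1 + 4 * |Λ| + |B|), fun t y r hr => ?_⟩
  by_cases ht : t ∈ Ioo a b
  swap
  · have : F.sl t = ∅ := eq_empty_of_forall_notMem fun x hx => ht (hF.time (x, t) hx)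
    simp [Mv.mu, this]
  obtain ⟨M, hx⟩ := Sl.exists_imm hR t
  have := isCompact_iff_compactSpace.1 (Flow.sl_compact hF hρ ht)
  have h1 := hL _ M (isConnected_iff_connectedSpace.1 (hcon t ht)) y r hr
  have e : ∀ s, {p | ‖M.x p - y‖ < s} = Subtype.val ⁻¹' Metric.ball y s := fun s => by
    ext p
    simp [hx, dist_eq_norm]
  have h2 := hB t ht
  rw [Sl.integral_eq hR hx] at h2
  simp only [← Sl.scal_eq hR hx] at h2
  have h3 : M.mu.real (Subtype.val ⁻¹' Metric.ball y (2 * r)) / r ^ 2 ≤ 4 * |Λ| := by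
    rw [div_le_iff₀ (by positivity), Measure.real, ← Sl.mu_eq hR hx]
    refine ENNReal.toReal_le_of_le_ofReal (by positivity) ((hF.ar t y _ (by positivity)).trans
      (ENNReal.ofReal_le_ofReal ?_))
    nlinarith [le_abs_self Λ, sq_nonneg r]
  rw [e, e] at h1
  rw [Sl.setLIntegral_eq hR hx, Sl.setLIntegral_eq hR hx]
  simp only [← Sl.a2_eq hR hx, ← Sl.h2_eq hR hx]
  rw [← ofReal_integral_eq_lintegral_ofReal (Asm.intg (Asm.cont_a2 M)).integrableOn
      (ae_of_all _ Asm.a2_nonneg),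
    ← ofReal_integral_eq_lintegral_ofReal (Asm.intg (Asm.cont_h2 M)).integrableOn
      (ae_of_all _ Asm.h2_nonneg)]
  have h4 : 0 ≤ ∫ p in Subtype.val ⁻¹' Metric.ball y (2 * r), GB.h2 M p ∂M.mu :=
    integral_nonneg Asm.h2_nonneg
  rw [← ENNReal.ofReal_one, ← ENNReal.ofReal_add zero_le_one h4,
    ← ENNReal.ofReal_mul (by positivity)]
  refine ENNReal.ofReal_le_ofReal (h1.trans ?_)
  rw [mul_assoc]
  gcongr
  nlinarith [le_abs_self B, abs_nonneg B, abs_nonneg Λ, mul_nonneg (abs_nonneg B) h4,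
    mul_nonneg (abs_nonneg Λ) h4]

end Crest.Agent.N250.GB

end
end

-- ▼ part N250/Or/Glob
section

/-!
Row 250, orientation leaf, part 2 (helper96): a set that is locally a regular level set in an open
convex set is globally the regular zero set of one smooth function.
-/

set_option autoImplicit false

open Set Filter Topology TopologicalSpace
open scoped ContDiff Manifold

namespace Crest.Agent.N250.Or

/-- locally constant sign cocycles on a simply connected space are coboundaries -/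
theorem cech_trivial {B ι : Type*} [TopologicalSpace B] [SimplyConnectedSpace B]
    [LocallyPathConnectedSpace B] (U : ι → Set B) (hU : ∀ i, IsOpen (U i)) (idx : B → ι)
    (hidx : ∀ x, x ∈ U (idx x)) (c : ι → ι → B → ℤˣ) (hc0 : ∀ i, ∀ x ∈ U i, c i i x = 1)
    (hcc : ∀ i j, ContinuousOn (c i j) (U i ∩ U j))
    (hc3 : ∀ i j k, ∀ x ∈ U i ∩ U j ∩ U k, c j k x * c i j x = c i k x) :
    ∃ ε : ι → B → ℤˣ, (∀ i, ContinuousOn (ε i) (U i)) ∧
      ∀ i j, ∀ x ∈ U i ∩ U j, ε j x = c i j x * ε i x := by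
  let Z : FiberBundleCore ι B ℤˣ :=
    { baseSet := U, isOpen_baseSet := hU, indexAt := idx, mem_baseSet_at := hidx
      coordChange := fun i j x v => c i j x * v
      coordChange_self := fun i x hx v => by rw [hc0 i x hx, one_mul]
      continuousOn_coordChange := fun i j =>
        ((hcc i j).comp continuousOn_fst fun p hp => hp.1).mul continuousOn_snd
      coordChange_comp := fun i j k x hx v => by rw [← mul_assoc, hc3 i j k x hx] }
  have cov : IsCoveringMap Z.proj :=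
    IsFiberBundle.isCoveringMap fun x => ⟨Z.localTriv (idx x), hidx x⟩
  obtain ⟨x0⟩ : Nonempty B := inferInstance
  obtain ⟨s, ⟨-, hs⟩, -⟩ := cov.existsUnique_continuousMap_lifts (ContinuousMap.id B) x0
    ⟨x0, (1 : ℤˣ)⟩ rfl
  have hs1 : ∀ x, (s x).1 = x := fun x => congrFun hs x
  refine ⟨fun i x => (Z.localTriv i (s x)).2, fun i => ?_, fun i j x hx => ?_⟩
  · refine continuous_snd.comp_continuousOn
      ((Z.localTriv i).continuousOn.comp s.continuous.continuousOn fun x hx => ?_)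
    rw [Z.mem_localTriv_source, hs1]
    exact hx
  · have h1 : x ∈ U (idx (s x).1) := by rw [hs1]; exact hidx x
    have h2 := hc3 (idx (s x).1) i j x ⟨⟨h1, hx.1⟩, hx.2⟩
    change c (idx (s x).1) j (s x).1 * _ = c i j x * (c (idx (s x).1) i (s x).1 * _)
    rw [← mul_assoc]
    congr 1
    rw [hs1] at h2 ⊢
    exact h2.symm

variable {V : Type*} [NormedAddCommGroup V] [NormedSpace ℝ V]

/-- `φ` is a regular defining function of `M` near `p` -/
structure Good (M : Set V) (φ : V → ℝ) (p : V) : Prop where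
  sm : SmN φ p
  ne : φ p = 0 → fderiv ℝ φ p ≠ 0
  mem : ∀ᶠ x in 𝓝 p, x ∈ M ↔ φ x = 0

theorem Good.eventually {M : Set V} {φ : V → ℝ} {p : V} (h : Good M φ p) :
    ∀ᶠ q in 𝓝 p, Good M φ q := by
  have h1 : ∀ᶠ q in 𝓝 p, φ q = 0 → fderiv ℝ φ q ≠ 0 := by
    by_cases h0 : φ p = 0
    · exact ((h.sm.at.continuousAt_fderiv (by simp)).eventually_ne (h.ne h0)).mono
        fun q hq _ => hq
    · exact (h.sm.at.continuousAt.eventually_ne h0).mono fun q hq h1 => absurd h1 hq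
  filter_upwards [h.sm.eventually, h1, h.mem.eventually_nhds] with q a b c using ⟨a, b, c⟩

/-- `ψ = s g φ` near `x` with `g > 0` smooth -/
def Rel (φ ψ : V → ℝ) (x : V) (s : ℝ) : Prop :=
  ∃ g : V → ℝ, SmN g x ∧ 0 < g x ∧ ∀ᶠ y in 𝓝 x, ψ y = s * (g y * φ y)

theorem Rel.eventually {φ ψ : V → ℝ} {x : V} {s : ℝ} (h : Rel φ ψ x s) :
    ∀ᶠ y in 𝓝 x, Rel φ ψ y s := by
  obtain ⟨g, h1, h2, h3⟩ := h
  filter_upwards [h1.eventually, h1.at.continuousAt.eventually (lt_mem_nhds h2),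
    h3.eventually_nhds] with y a b c using ⟨g, a, b, c⟩

theorem Rel.refl (φ : V → ℝ) (x : V) : Rel φ φ x 1 :=
  ⟨fun _ => 1, SmN.of_contDiff contDiff_const x, one_pos, Eventually.of_forall fun y => by ring⟩

theorem Rel.trans {φ ψ χ : V → ℝ} {x : V} {s t : ℝ} (h : Rel φ ψ x s) (k : Rel ψ χ x t) :
    Rel φ χ x (t * s) := by
  obtain ⟨g, h1, h2, h3⟩ := h
  obtain ⟨g', k1, k2, k3⟩ := k
  refine ⟨fun y => g' y * g y, ?_, mul_pos k2 h2, ?_⟩
  · filter_upwards [h1, k1] with y a b using b.mul a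
  · filter_upwards [h3, k3] with y a b
    rw [b, a]; ring

theorem Rel.unique {φ ψ : V → ℝ} {x : V} {s t : ℤˣ} (hd : φ x = 0 → fderiv ℝ φ x ≠ 0)
    (h : Rel φ ψ x ((s : ℤ) : ℝ)) (k : Rel φ ψ x ((t : ℤ) : ℝ)) : s = t := by
  obtain ⟨g, h1, h2, h3⟩ := h
  obtain ⟨g', k1, k2, k3⟩ := k
  obtain ⟨y, a, b, c, d, e⟩ := ((frequently_ne hd).and_eventually (h3.and (k3.and
    ((h1.at.continuousAt.eventually (lt_mem_nhds h2)).and
      (k1.at.continuousAt.eventually (lt_mem_nhds k2)))))).exists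
  have h4 : ((s : ℤ) : ℝ) * g y = ((t : ℤ) : ℝ) * g' y := by
    apply mul_right_cancel₀ a
    rw [mul_assoc, mul_assoc, ← b, ← c]
  rcases Int.units_eq_one_or s with rfl | rfl <;> rcases Int.units_eq_one_or t with rfl | rfl
  · rfl
  · simp at h4; linarith
  · simp at h4; linarith
  · rfl

theorem Good.exists_rel [FiniteDimensional ℝ V] {M : Set V} {φ ψ : V → ℝ} {x : V}
    (h : Good M φ x) (k : Good M ψ x) : ∃ s : ℤˣ, Rel φ ψ x ((s : ℤ) : ℝ) := by
  obtain ⟨g, h1, h2, h3⟩ := ratio h.sm k.sm h.ne k.ne (by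
    filter_upwards [h.mem, k.mem] with y a b using a.symm.trans b)
  rcases h2.lt_or_gt with h4 | h4
  · refine ⟨-1, fun y => -g y, h1.mono fun y hy => hy.neg, by linarith, h3.mono fun y hy => ?_⟩
    rw [hy]; simp
  · exact ⟨1, g, h1, h4, h3.mono fun y hy => by rw [hy]; simp⟩

theorem Good.smul {M : Set V} {φ ψ : V → ℝ} {x : V} (h : Good M φ x) {c : ℝ} (hc : c ≠ 0)
    (e : ψ =ᶠ[𝓝 x] fun y => c * φ y) : Good M ψ x := by
  refine ⟨SmN.congr (h.sm.mono fun y hy => contDiffAt_const.mul hy) e, fun h0 => ?_, ?_⟩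
  · have h1 : φ x = 0 := by
      have := e.self_of_nhds
      rw [h0] at this
      exact (mul_eq_zero.1 this.symm).resolve_left hc
    rw [e.fderiv_eq, (h.sm.diff.hasFDerivAt.const_mul c).fderiv]
    exact smul_ne_zero hc (h.ne h1)
  · filter_upwards [h.mem, e] with y a b
    rw [a, b]; simp [hc]

/-- coherent choice of local defining functions -/
theorem exists_coherent [FiniteDimensional ℝ V] {Ω M : Set V} (hΩ : IsOpen Ω) (hcv : Convex ℝ Ω)
    (h : ∀ p ∈ Ω, ∃ φ, Good M φ p) :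
    ∃ (U : Ω → Set Ω) (ψ : Ω → V → ℝ), (∀ i, IsOpen (U i)) ∧ (∀ i, i ∈ U i) ∧
      (∀ i, ∀ x ∈ U i, Good M (ψ i) x) ∧ ∀ i j, ∀ x ∈ U i ∩ U j, Rel (ψ i) (ψ j) x 1 := by
  classical
  rcases Ω.eq_empty_or_nonempty with rfl | hne
  · exact ⟨fun _ => ∅, fun _ _ => 0, fun _ => isOpen_empty, fun i => i.2.elim,
      fun i => i.2.elim, fun i => i.2.elim⟩
  have := hcv.contractibleSpace hne
  have := hΩ.locallyPathConnectedSpace
  choose φ hφ using h
  set U : Ω → Set Ω := fun i => {x | Good M (φ i i.2) x} with hU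
  have hUo : ∀ i, IsOpen (U i) := fun i => isOpen_iff_mem_nhds.2 fun x hx =>
    continuous_subtype_val.continuousAt.eventually (Good.eventually hx)
  have hex : ∀ i j (x : Ω), ∃ s : ℤˣ, x ∈ U i ∩ U j → Rel (φ i i.2) (φ j j.2) x ((s : ℤ) : ℝ) := by
    intro i j x
    by_cases hx : x ∈ U i ∩ U j
    · obtain ⟨s, hs⟩ := Good.exists_rel hx.1 hx.2
      exact ⟨s, fun _ => hs⟩
    · exact ⟨1, fun h1 => absurd h1 hx⟩
  choose c hc using hex
  obtain ⟨ε, hε, hεc⟩ := cech_trivial U hUo id (fun x => hφ x x.2) c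
    (fun i x hx => Rel.unique hx.ne (hc i i x ⟨hx, hx⟩) (by simpa using Rel.refl _ _))
    (fun i j x hx => by
      refine ContinuousAt.continuousWithinAt ?_
      refine continuousAt_const.congr (f := fun _ => c i j x) ?_
      filter_upwards [continuous_subtype_val.continuousAt.eventually (hc i j x hx).eventually,
        ((hUo i).inter (hUo j)).mem_nhds hx] with y a b
      exact Rel.unique b.1.ne a (hc i j y b))
    (fun i j k x hx => Rel.unique hx.1.1.ne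
      (by simpa using (hc i j x hx.1).trans (hc j k x ⟨hx.1.2, hx.2⟩))
      (hc i k x ⟨hx.1.1, hx.2⟩))
  set ψ : Ω → V → ℝ := fun i y =>
    (if hy : y ∈ Ω then ((ε i ⟨y, hy⟩ : ℤ) : ℝ) else 0) * φ i i.2 y with hψ
  have hloc : ∀ i, ∀ x ∈ U i, ψ i =ᶠ[𝓝 (x : V)] fun y => ((ε i x : ℤ) : ℝ) * φ i i.2 y := by
    intro i x hx
    have h1 : ∀ᶠ y in 𝓝 x, ε i y = ε i x :=
      ((hε i).continuousAt ((hUo i).mem_nhds hx)).eventually
        (p := fun z => z = ε i x) (by simp [nhds_discrete])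
    rw [← hΩ.isOpenEmbedding_subtypeVal.map_nhds_eq x, EventuallyEq, eventually_map]
    filter_upwards [h1] with y hy
    simp [hψ, y.2, hy]
  have hne : ∀ s : ℤˣ, ((s : ℤ) : ℝ) ≠ 0 := fun s => by exact_mod_cast s.ne_zero
  have hsq : ∀ s : ℤˣ, ((s : ℤ) : ℝ) * ((s : ℤ) : ℝ) = 1 := fun s => by
    rcases Int.units_eq_one_or s with rfl | rfl <;> simp
  refine ⟨U, ψ, hUo, fun i => hφ i i.2, fun i x hx => Good.smul hx (hne _) (hloc i x hx),
    fun i j x hx => ?_⟩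
  obtain ⟨g, h1, h2, h3⟩ := hc i j x hx
  refine ⟨g, h1, h2, ?_⟩
  filter_upwards [h3, hloc i x hx.1, hloc j x hx.2] with y a b d
  rw [b, d, a, hεc i j x hx]
  push_cast
  linear_combination (g y * φ i i.2 y * ((ε i x : ℤ) : ℝ)) * hsq (c i j x)

/-- **Global defining function.** -/
theorem exists_global [FiniteDimensional ℝ V] {Ω M : Set V} (hΩ : IsOpen Ω) (hcv : Convex ℝ Ω)
    (h : ∀ p ∈ Ω, ∃ φ, Good M φ p) :
    ∃ Φ : V → ℝ, ContDiffOn ℝ ∞ Φ Ω ∧ ∀ p ∈ Ω, Good M Φ p := by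
  classical
  obtain ⟨U, ψ, hU, hUi, hG, hR⟩ := exists_coherent hΩ hcv h
  let O : Opens V := ⟨Ω, hΩ⟩
  have : ProperSpace V := FiniteDimensional.proper ℝ V
  have : LocallyCompactSpace O := hΩ.locallyCompactSpace
  obtain ⟨ρ, hρ⟩ := SmoothPartitionOfUnity.exists_isSubordinate (ι := Ω) (M := O) 𝓘(ℝ, V)
    isClosed_univ U hU (fun x _ => mem_iUnion.2 ⟨x, hUi x⟩)
  set Φ : V → ℝ := fun y => if hy : y ∈ Ω then ∑ᶠ i, ρ i ⟨y, hy⟩ • ψ i y else 0 with hΦ
  have hΦe : ∀ x : O, Φ x = ∑ᶠ i, ρ i x • ψ i x := fun x => dif_pos x.2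
  have hsm : ∀ p ∈ Ω, ContDiffAt ℝ ∞ Φ p := by
    intro p hp
    have h1 : ContMDiff 𝓘(ℝ, V) 𝓘(ℝ) ∞ fun x : O => ∑ᶠ i, ρ i x • ψ i x :=
      ρ.contMDiff_finsum_smul fun i x hx => contMDiffAt_subtype_iff.2
        (hG i x (hρ i hx)).sm.at.contMDiffAt
    have h2 : ContMDiffAt 𝓘(ℝ, V) 𝓘(ℝ) ∞ (fun x : O => Φ x) ⟨p, hp⟩ := by
      simp only [hΦe]; exact h1 _
    exact (contMDiffAt_subtype_iff.1 h2).contDiffAt
  have hsn : ∀ p ∈ Ω, SmN Φ p := fun p hp =>
    (hΩ.eventually_mem hp).mono fun y hy => hsm y hy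
  have hmem : ∀ i (x : O), ρ i x ≠ 0 → x ∈ U i := fun i x hx => hρ i (subset_tsupport _ hx)
  -- the key inequality
  have key : ∀ i (x : O), ρ i x * ψ i x ^ 2 ≤ ψ i x * Φ x ∨ ρ i x = 0 := by
    intro i x
    by_cases hi : ρ i x = 0
    · exact Or.inr hi
    left
    have hfin : (Function.support fun j => ρ j x).Finite := ρ.locallyFinite.point_finite x
    have hf2 : (Function.support fun j => ρ j x • ψ j x).Finite :=
      hfin.subset fun j hj => left_ne_zero_of_smul hj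
    rw [hΦe, mul_finsum]
    have h3 := single_le_finsum i (f := fun j => ψ i x * (ρ j x • ψ j x))
      (hf2.subset fun j hj => right_ne_zero_of_mul hj) (fun j => by
        by_cases hj : ρ j x = 0
        · simp [hj]
        · obtain ⟨g, -, h2, h3⟩ := hR i j x ⟨hmem i x hi, hmem j x hj⟩
          have h4 := ρ.nonneg j x
          rw [h3.self_of_nhds, smul_eq_mul]
          have : ψ i x * (ρ j x * (1 * (g x * ψ i x))) = ρ j x * g x * ψ i x ^ 2 := by ring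
          rw [this]; positivity)
    refine le_trans (le_of_eq ?_) h3
    simp only [smul_eq_mul]; ring
  have hz : ∀ p ∈ Ω, p ∈ M ↔ Φ p = 0 := by
    intro p hp
    obtain ⟨i, hi⟩ := ρ.exists_pos_of_mem (x := ⟨p, hp⟩) (mem_univ _)
    constructor
    · intro hM
      rw [show Φ p = _ from hΦe ⟨p, hp⟩]
      refine finsum_eq_zero_of_forall_eq_zero fun j => ?_
      by_cases hj : ρ j ⟨p, hp⟩ = 0
      · simp [hj]
      · rw [(hG j _ (hmem j _ hj)).mem.self_of_nhds.1 hM, smul_zero]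
    · intro h0
      have h1 := (key i ⟨p, hp⟩).resolve_right hi.ne'
      rw [show Φ (⟨p, hp⟩ : O) = 0 from h0, mul_zero] at h1
      refine (hG i _ (hmem i _ hi.ne')).mem.self_of_nhds.2 ?_
      have h2 : ψ i p ^ 2 ≤ 0 := by
        by_contra h3
        exact absurd h1 (not_le.2 (mul_pos hi (not_le.1 h3)))
      exact pow_eq_zero_iff (two_ne_zero) |>.1 (le_antisymm h2 (sq_nonneg _))
  refine ⟨Φ, fun p hp => (hsm p hp).contDiffWithinAt, fun p hp => ⟨hsn p hp, fun h0 hd => ?_,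
    (hΩ.eventually_mem hp).mono fun y hy => hz y hy⟩⟩
  obtain ⟨i, hi⟩ := ρ.exists_pos_of_mem (x := ⟨p, hp⟩) (mem_univ _)
  have hGi := hG i _ (hmem i _ hi.ne')
  have hψ0 : ψ i p = 0 := hGi.mem.self_of_nhds.1 ((hz p hp).2 h0)
  refine hGi.ne hψ0 (HasFDerivAt.fderiv ?_)
  have h1 : HasFDerivAt Φ (0 : V →L[ℝ] ℝ) p := hd ▸ (hsn p hp).diff.hasFDerivAt
  rw [hasFDerivAt_iff_isLittleO] at h1 ⊢
  refine Asymptotics.IsBigO.trans_isLittleO ?_ h1
  refine Asymptotics.IsBigO.of_bound (2 / ρ i ⟨p, hp⟩) ?_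
  have h2 : ∀ᶠ y : O in 𝓝 ⟨p, hp⟩, ρ i ⟨p, hp⟩ / 2 < ρ i y :=
    (ρ i).contMDiff.continuous.continuousAt.eventually (lt_mem_nhds (by linarith))
  have h3 := hΩ.isOpenEmbedding_subtypeVal.map_nhds_eq ⟨p, hp⟩
  change map _ _ = 𝓝 p at h3
  change ∀ᶠ y in 𝓝 p, _
  rw [← h3, eventually_map]
  filter_upwards [h2] with y hy
  change ρ i ⟨p, hp⟩ / 2 < ρ i y at hy
  have h4 := (key i y).resolve_right (by linarith : ρ i y ≠ 0)
  change ‖ψ i y - ψ i p - 0‖ ≤ _ * ‖Φ y - Φ p - 0‖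
  rw [hψ0, h0]
  simp only [sub_zero, Real.norm_eq_abs]
  have h5 : ρ i y * |ψ i y| ^ 2 ≤ |ψ i y| * |Φ y| := by
    rw [sq_abs, ← abs_mul]; exact h4.trans (le_abs_self _)
  rcases (abs_nonneg (ψ i y)).eq_or_lt with h6 | h6
  · rw [← h6]; positivity
  · have h7 : ρ i y * |ψ i y| ≤ |Φ y| := by
      by_contra h8
      nlinarith
    rw [div_mul_eq_mul_div, le_div_iff₀ hi]
    nlinarith

end Crest.Agent.N250.Or
end

-- ▼ part N250/Or/Br
section

/-!
Row 250, orientation leaf, part 3 (helper96): the oriented flow of a Prelude flow, the oriented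
shrinker of a Prelude shrinker, `H` = level set mean curvature.
-/

set_option autoImplicit false
open MeasureTheory Set Filter Topology Function
open scoped ContDiff InnerProductSpace
open Crest.GeometryTopology.MCF

noncomputable section

namespace Crest.Agent.N250.Or

/-- the moving surface defined by one function -/
def ofFun (M : Set ST) (Φ : ST → ℝ) : Mv where
  M := M
  n q := ‖gradX Φ q.1 q.2‖⁻¹ • gradX Φ q.1 q.2
  V q := -dT Φ q / ‖gradX Φ q.1 q.2‖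

theorem gradX_of_fderiv {φ ψ : ST → ℝ} {q : ST} {c : ℝ} (hφ : DifferentiableAt ℝ φ q)
    (hψ : DifferentiableAt ℝ ψ q) (h : fderiv ℝ ψ q = c • fderiv ℝ φ q) :
    gradX ψ q.1 q.2 = c • gradX φ q.1 q.2 ∧ dT ψ q = c * dT φ q := by
  refine ⟨ext_inner_right ℝ fun v => ?_, ?_⟩
  · rw [inner_gradX hψ, inner_smul_left, inner_gradX hφ, h]; simp
  · rw [dT_eq hψ, dT_eq hφ, h]; simp

theorem Rel.fderiv {V : Type*} [NormedAddCommGroup V] [NormedSpace ℝ V] {φ ψ : V → ℝ} {x : V}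
    {s : ℝ} (h : Rel φ ψ x s) (hφ : DifferentiableAt ℝ φ x) (h0 : φ x = 0) :
    ∃ c : ℝ, 0 < c ∧ _root_.fderiv ℝ ψ x = c • _root_.fderiv ℝ (fun y => s * φ y) x := by
  obtain ⟨g, h1, h2, h3⟩ := h
  refine ⟨g x, h2, ?_⟩
  have h4 := ((h1.diff.hasFDerivAt.mul hφ.hasFDerivAt).const_mul s).congr_of_eventuallyEq h3
  rw [h4.fderiv, (hφ.hasFDerivAt.const_mul s).fderiv, h0, zero_smul, add_zero, smul_comm]

theorem good_of_gradX {M W : Set ST} {φ : ST → ℝ} {p : ST} (hW : IsOpen W) (hp : p ∈ W)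
    (hs : ContDiffOn ℝ ∞ φ W) (hne : gradX φ p.1 p.2 ≠ 0) (hm : ∀ q ∈ W, q ∈ M ↔ φ q = 0) :
    Good M φ p := by
  have h1 := SmN.of_on hW hs hp
  refine ⟨h1, fun _ h0 => hne (ext_inner_right ℝ fun v => ?_),
    (hW.eventually_mem hp).mono hm⟩
  rw [inner_gradX h1.diff, h0]; simp

/-- a local defining function is, up to sign, compatible with the global orientation -/
theorem loc_of_good {M W : Set ST} {Φ φ : ST → ℝ} {p : ST} (hΦ : Good M Φ p) (hW : IsOpen W)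
    (hp : p ∈ W) (hs : ContDiffOn ℝ ∞ φ W) (hne : ∀ q ∈ W, gradX φ q.1 q.2 ≠ 0)
    (hm : ∀ q ∈ W, q ∈ M ↔ φ q = 0) :
    ∃ (W' : Set ST) (s : ℝ), (s = 1 ∨ s = -1) ∧ p ∈ W' ∧ W' ⊆ W ∧
      (ofFun M Φ).Loc W' (fun q => s * φ q) := by
  obtain ⟨s, hs'⟩ := (good_of_gradX hW hp hs (hne p hp) hm).exists_rel hΦ
  have hs1 : ((s : ℤ) : ℝ) = 1 ∨ ((s : ℤ) : ℝ) = -1 := by
    rcases Int.units_eq_one_or s with rfl | rfl <;> simp
  have hs0 : ((s : ℤ) : ℝ) ≠ 0 := by rcases hs1 with h | h <;> rw [h] <;> norm_num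
  set σ : ℝ := ((s : ℤ) : ℝ)
  obtain ⟨W', h1, h2, h3⟩ := eventually_nhds_iff.1
    (hs'.eventually.and (hΦ.eventually.and (hW.eventually_mem hp)))
  have hd : ∀ q ∈ W', DifferentiableAt ℝ φ q := fun q hq => (SmN.of_on hW hs (h1 q hq).2.2).diff
  have hg : ∀ q ∈ W', gradX (fun q => σ * φ q) q.1 q.2 = σ • gradX φ q.1 q.2 := fun q hq =>
    (gradX_of_fderiv (hd q hq) ((hd q hq).const_mul σ)
      ((hd q hq).hasFDerivAt.const_mul σ).fderiv).1
  have hne' : ∀ q ∈ W', gradX (fun q => σ * φ q) q.1 q.2 ≠ 0 := fun q hq => by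
    rw [hg q hq]; exact smul_ne_zero hs0 (hne q (h1 q hq).2.2)
  have key : ∀ q ∈ W', q ∈ M → ∃ c : ℝ, 0 < c ∧
      gradX Φ q.1 q.2 = c • gradX (fun q => σ * φ q) q.1 q.2 ∧
        dT Φ q = c * dT (fun q => σ * φ q) q := by
    intro q hq hM
    obtain ⟨c, hc, he⟩ := (h1 q hq).1.fderiv (hd q hq) ((hm q (h1 q hq).2.2).1 hM)
    exact ⟨c, hc, gradX_of_fderiv ((hd q hq).const_mul σ) (h1 q hq).2.1.sm.diff he⟩
  refine ⟨W', σ, hs1, h3, fun q hq => (h1 q hq).2.2, h2,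
    contDiffOn_const.mul (hs.mono fun q hq => (h1 q hq).2.2), hne', fun q hq => ?_,
    fun q hq hM => ?_, fun q hq hM => ?_⟩
  · change q ∈ M ↔ _
    rw [hm q (h1 q hq).2.2]; simp [hs0]
  · obtain ⟨c, hc, e1, -⟩ := key q hq hM
    change ‖gradX Φ q.1 q.2‖⁻¹ • gradX Φ q.1 q.2 = _
    have := norm_ne_zero_iff.2 (hne' q hq)
    rw [e1, norm_smul, smul_smul, Real.norm_of_nonneg hc.le]
    congr 1; field_simp
  · obtain ⟨c, hc, e1, e2⟩ := key q hq hM
    change -dT Φ q / ‖gradX Φ q.1 q.2‖ = _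
    have := norm_ne_zero_iff.2 (hne' q hq)
    rw [e1, e2, norm_smul, Real.norm_of_nonneg hc.le]
    field_simp

theorem lsmc_sign {φ : ST → ℝ} {s : ℝ} (hs : s = 1 ∨ s = -1) (x : E) (t : ℝ) :
    levelSetMeanCurv (fun q => s * φ q) x t = s * levelSetMeanCurv φ x t ∧
      gradX (fun q => s * φ q) x t = s • gradX φ x t ∧
      dT (fun q => s * φ q) (x, t) = s * dT φ (x, t) := by
  rcases hs with rfl | rfl
  · simp
  · have h1 : ∀ y, gradX (fun q => -1 * φ q) y t = -gradX φ y t := fun y => by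
      simp only [gradX, gradient, neg_mul, one_mul, fderiv_fun_neg, map_neg]
    refine ⟨?_, by rw [h1]; simp, by simp [dT, deriv.fun_neg]⟩
    simp only [levelSetMeanCurv, h1, norm_neg, smul_neg, fderiv_fun_neg]
    simp

/-- `H` is the level set mean curvature -/
theorem H_eq_lsmc {F : Mv} (hF : F.Reg) {W : Set ST} {φ : ST → ℝ} (h : F.Loc W φ) {p : ST}
    (hp : p ∈ W) (hM : p ∈ F.M) : F.H p = levelSetMeanCurv φ p.1 p.2 := by
  set N : ST → E := fun q => ‖gradX φ q.1 q.2‖⁻¹ • gradX φ q.1 q.2 with hN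
  have hNd : DifferentiableAt ℝ N p :=
    (h.sm_n.contDiffAt (h.isOpen.mem_nhds hp)).differentiableAt (by simp)
  set L := fderiv ℝ N p
  have hA : ∀ a, F.A a a p = L (F.PL p (ee a), 0) a := fun a => by
    have h1 := (EuclideanSpace.proj (𝕜 := ℝ) a).hasFDerivAt.comp p hNd.hasFDerivAt
    change F.td (F.nu a) p (F.PL p (ee a), 0) = _
    rw [hF.td_ext hM h1.differentiableAt ?_ (hF.tg_PL hM _), h1.fderiv]
    · rfl
    · filter_upwards [nhdsWithin_le_nhds (h.isOpen.mem_nhds hp), self_mem_nhdsWithin]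
        with q hq hqM
      change F.n q a = N q a
      rw [h.n_eq q hq hqM]
  have hn : ∀ w, ⟪F.n p, L w⟫_ℝ = 0 := fun w => by
    have h1 := hNd.hasFDerivAt.inner ℝ hNd.hasFDerivAt
    have h2 : (fun q => ⟪N q, N q⟫_ℝ) =ᶠ[𝓝 p] fun _ => 1 := by
      filter_upwards [h.isOpen.mem_nhds hp] with q hq
      rw [real_inner_self_eq_norm_sq, hN]
      simp only [norm_smul, norm_inv, norm_norm, inv_mul_cancel₀ (h.norm_pos hq).ne', one_pow]
    have h3 := congrArg (fun T : ST →L[ℝ] ℝ => T w)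
      (h1.unique ((hasFDerivAt_const (1:ℝ) p).congr_of_eventuallyEq h2))
    have h4 : N p = F.n p := (h.n_eq p hp hM).symm
    simp only [ContinuousLinearMap.comp_apply, ContinuousLinearMap.prod_apply,
      fderivInnerCLM_apply, h4, zero_apply] at h3
    rw [real_inner_comm (F.n p) (fderiv ℝ N p w)] at h3
    change ⟪F.n p, fderiv ℝ N p w⟫_ℝ = 0
    linarith
  have h5 : HasFDerivAt (fun y : E => N (y, p.2)) (L.comp (ContinuousLinearMap.inl ℝ E ℝ)) p.1 :=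
    HasFDerivAt.comp (g := N) (f := fun y : E => (y, p.2)) p.1 hNd.hasFDerivAt
      (hasFDerivAt_prodMk_left p.1 p.2)
  change (∑ a, F.A a a) p = LinearMap.trace ℝ E (fderiv ℝ (fun y : E => N (y, p.2)) p.1).toLinearMap
  rw [h5.fderiv, LinearMap.trace_eq_sum_inner _ (EuclideanSpace.basisFun (Fin 3) ℝ),
    Finset.sum_apply]
  have h6 : ∀ a, L (F.PL p (ee a), 0) a = L (ee a, 0) a - F.n p a * L (F.n p, 0) a := fun a => by
    have : ((F.PL p (ee a), 0) : ST) = (ee a, 0) - F.n p a • (F.n p, 0) := by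
      simp [Mv.PL, inner_ee]
    rw [this, map_sub, map_smul]; simp
  simp only [hA, h6, Finset.sum_sub_distrib]
  rw [← inner_eq_sum, hn, sub_zero]
  refine Finset.sum_congr rfl fun a _ => ?_
  rw [EuclideanSpace.basisFun_apply, real_inner_comm, inner_ee]
  rfl

/-- **Orientation of the Prelude flow.** -/
theorem exists_mv {M : ℝ → Set E} {T : ℝ} (hM : IsSmoothMCF M T) :
    ∃ (F : Mv) (Φ : ST → ℝ), F.IsMCF ∧ F.M = {p | p.2 ∈ Ioo 0 T ∧ p.1 ∈ M p.2} ∧
      F.Proper (univ ×ˢ Ioo 0 T) ∧ ContDiffOn ℝ ∞ Φ (univ ×ˢ Ioo 0 T) ∧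
      F.Loc (univ ×ˢ Ioo 0 T ∩ {q | gradX Φ q.1 q.2 ≠ 0}) Φ ∧
      ∀ q ∈ univ ×ˢ Ioo 0 T, (q ∈ F.M ↔ Φ q = 0) ∧ (q ∈ F.M → gradX Φ q.1 q.2 ≠ 0) := by
  obtain ⟨hcl, -, hloc⟩ := hM
  set K : Set ST := {p | p.2 ∈ Ioo 0 T ∧ p.1 ∈ M p.2} with hK
  set Ω : Set ST := univ ×ˢ Ioo 0 T with hΩ
  have hΩo : IsOpen Ω := isOpen_univ.prod isOpen_Ioo
  have hpr : ∀ p ∈ closure K, p ∈ Ω → p ∈ K := fun p hp hp2 =>
    ⟨hp2.2, hcl p (closure_mono (t := track M T)
      (fun q hq => ⟨Ioo_subset_Ico_self hq.1, hq.2⟩) hp)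
      (Ioo_subset_Ico_self hp2.2)⟩
  have hl : ∀ p ∈ K, ∃ (W : Set ST) (φ : ST → ℝ), IsOpen W ∧ p ∈ W ∧ W ⊆ Ω ∧
      ContDiffOn ℝ ∞ φ W ∧ (∀ q ∈ W, gradX φ q.1 q.2 ≠ 0) ∧ (∀ q ∈ W, q ∈ K ↔ φ q = 0) ∧
      ∀ q ∈ W, q ∈ K → dT φ q = ‖gradX φ q.1 q.2‖ * levelSetMeanCurv φ q.1 q.2 := by
    intro p hp
    obtain ⟨W, φ, h1, ⟨h2, h3, h4, h5⟩, h6⟩ := hloc p.2 (Ioo_subset_Ico_self hp.1) p.1 hp.2
    refine ⟨W ∩ Ω, φ, h2.inter hΩo, ⟨h1, mem_univ _, hp.1⟩, inter_subset_right,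
      h3.mono inter_subset_left, fun q hq => h4 q hq.1, fun q hq => ?_,
      fun q hq hq2 => h6 q hq.1 (Ioo_subset_Ico_self hq2.1) hq2.2⟩
    rw [← h5 q hq.1 (Ioo_subset_Ico_self hq.2.2)]
    exact ⟨fun h => h.2, fun h => ⟨hq.2.2, h⟩⟩
  obtain ⟨Φ, hΦ, hG⟩ := exists_global (M := K) hΩo (convex_univ.prod (convex_Ioo 0 T)) (by
    intro p hp
    by_cases hpK : p ∈ K
    · obtain ⟨W, φ, h1, h2, -, h4, h5, h6, -⟩ := hl p hpK
      exact ⟨φ, good_of_gradX h1 h2 h4 (h5 p h2) h6⟩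
    · refine ⟨fun _ => 1, SmN.of_contDiff contDiff_const p, fun h => absurd h one_ne_zero, ?_⟩
      filter_upwards [isClosed_closure.isOpen_compl.mem_nhds fun h => hpK (hpr p h hp)] with q hq
      exact ⟨fun h => absurd (subset_closure h) hq, fun h => absurd h one_ne_zero⟩)
  have hL : ∀ p ∈ K, ∃ (W : Set ST) (φ : ST → ℝ), p ∈ W ∧ (ofFun K Φ).Loc W φ ∧
      dT φ p = ‖gradX φ p.1 p.2‖ * levelSetMeanCurv φ p.1 p.2 := by
    intro p hp
    obtain ⟨W, φ, h1, h2, h3, h4, h5, h6, h7⟩ := hl p hp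
    obtain ⟨W', s, k1, k2, -, k4⟩ := loc_of_good (hG p (h3 h2)) h1 h2 h4 h5 h6
    obtain ⟨e1, e2, e3⟩ := lsmc_sign (φ := φ) k1 p.1 p.2
    refine ⟨W', _, k2, k4, ?_⟩
    rw [e1, e2, e3, h7 p h2 hp, norm_smul]
    rcases k1 with rfl | rfl <;> simp
  have hreg : (ofFun K Φ).Reg := fun p hp => by
    obtain ⟨W, φ, h1, h2, -⟩ := hL p hp
    exact ⟨W, φ, h1, h2⟩
  have hmem : ∀ q ∈ Ω, q ∈ K ↔ Φ q = 0 := fun q hq => (hG q hq).mem.self_of_nhds
  refine ⟨ofFun K Φ, Φ, ⟨hreg, fun p hp => ?_⟩, rfl, hpr, hΦ, ⟨?_, hΦ.mono inter_subset_left,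
    fun q hq => hq.2, fun q hq => hmem q hq.1, fun _ _ _ => rfl, fun _ _ _ => rfl⟩,
    fun q hq => ⟨hmem q hq, fun hqK h0 => ?_⟩⟩
  · obtain ⟨W, φ, h1, h2, h3⟩ := hL p hp
    have := (h2.norm_pos h1).ne'
    rw [H_eq_lsmc hreg h2 h1 hp, h2.V_eq p h1 hp, h3]
    field_simp
  · exact (contDiffOn_gradX hΩo hΦ).continuousOn.isOpen_inter_preimage hΩo isOpen_ne
  · obtain ⟨W, φ, h1, h2, -⟩ := hL q hqK
    have h3 := h2.norm_n h1 hqK
    change ‖‖gradX Φ q.1 q.2‖⁻¹ • gradX Φ q.1 q.2‖ = 1 at h3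
    rw [h0] at h3
    simp at h3

theorem orS_holds : Br.OrS := by
  intro M T hM
  obtain ⟨F, Φ, h1, h2, -, h4, h5, h6⟩ := exists_mv hM
  refine ⟨Φ, h4, fun p hp => ?_⟩
  have hp' : p ∈ (univ ×ˢ Ioo 0 T : Set ST) := ⟨mem_univ _, hp⟩
  have e : p ∈ F.M ↔ p.1 ∈ M p.2 := by rw [h2]; exact ⟨fun h => h.2, fun h => ⟨hp, h⟩⟩
  refine ⟨e.symm.trans (h6 p hp').1, fun hpM => ?_⟩
  have hF := e.2 hpM
  have hne := (h6 p hp').2 hF
  refine ⟨hne, ?_⟩
  have h7 := h1.2 p hF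
  have := (h5.norm_pos ⟨hp', hne⟩).ne'
  rw [H_eq_lsmc h1.1 h5 ⟨hp', hne⟩ hF, h5.V_eq p ⟨hp', hne⟩ hF] at h7
  field_simp at h7
  linarith

end Crest.Agent.N250.Or

end
end

-- ▼ part N250/Br/Hm
section

/-!
# Row 250, Prelude bridge (helper37): `H` is the level set mean curvature
-/

set_option autoImplicit false
open MeasureTheory Set Filter Topology
open scoped ContDiff InnerProductSpace
open Crest.GeometryTopology.MCF

noncomputable section

namespace Crest.Agent.N250.Br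

theorem trace_eq (L : E →L[ℝ] E) : LinearMap.trace ℝ E L.toLinearMap = ∑ a, L (ee a) a := by
  rw [LinearMap.trace_eq_matrix_trace ℝ (EuclideanSpace.basisFun (Fin 3) ℝ).toBasis]
  simp [Matrix.trace, LinearMap.toMatrix_apply]

theorem H_eq {F : Mv} (hF : F.Reg) {W : Set ST} {φ : ST → ℝ} (h : F.Loc W φ) {p : ST}
    (hp : p ∈ W) (hM : p ∈ F.M) : F.H p = levelSetMeanCurv φ p.1 p.2 := by
  set N : ST → E := fun q => ‖gradX φ q.1 q.2‖⁻¹ • gradX φ q.1 q.2 with hN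
  have hW : W ∈ 𝓝 p := h.isOpen.mem_nhds hp
  have hd : DifferentiableAt ℝ N p := (h.sm_n.contDiffAt hW).differentiableAt (by simp)
  set L : E →L[ℝ] E := (fderiv ℝ N p).comp (ContinuousLinearMap.inl ℝ E ℝ) with hL
  have hL1 : fderiv ℝ (fun y => N (y, p.2)) p.1 = L :=
    (HasFDerivAt.comp (g := N) (f := fun y : E => ((y, p.2) : ST)) p.1 hd.hasFDerivAt
      (hasFDerivAt_prodMk_left p.1 p.2)).fderiv
  have hNp : N p = F.n p := (h.n_eq p hp hM).symm
  -- the normal component of the derivative vanishes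
  have hn : ∀ w, ⟪F.n p, fderiv ℝ N p w⟫_ℝ = 0 := by
    intro w
    have h1 : (fun q => ⟪N q, N q⟫_ℝ) =ᶠ[𝓝 p] fun _ => (1 : ℝ) := by
      filter_upwards [hW] with q hq
      rw [real_inner_self_eq_norm_sq, hN]
      simp only [norm_smul, norm_inv, norm_norm, inv_mul_cancel₀ (h.norm_pos hq).ne', one_pow]
    have h2 := (hd.hasFDerivAt.inner ℝ hd.hasFDerivAt).fderiv
    rw [h1.fderiv_eq, fderiv_const_apply] at h2
    have h3 := congr($h2 w)
    simp only [zero_apply, ContinuousLinearMap.comp_apply,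
      ContinuousLinearMap.prod_apply, fderivInnerCLM_apply, hNp] at h3
    rw [real_inner_comm (F.n p)] at h3
    linarith
  have hA : ∀ a, F.A a a p = L (ee a) a - F.n p a * L (F.n p) a := by
    intro a
    have hda : HasFDerivAt (fun q => N q a) ((EuclideanSpace.proj a).comp (fderiv ℝ N p)) p :=
      (EuclideanSpace.proj (𝕜 := ℝ) a).hasFDerivAt.comp p hd.hasFDerivAt
    have e : F.nu a =ᶠ[𝓝[F.M] p] fun q => N q a := by
      filter_upwards [mem_nhdsWithin_of_mem_nhds hW, self_mem_nhdsWithin] with q hq hqM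
      simp only [Mv.nu, hN, h.n_eq q hq hqM]
    change F.td (F.nu a) p (F.PL p (ee a), 0) = _
    rw [hF.td_ext hM hda.differentiableAt e (hF.tg_PL hM _), hda.fderiv]
    have : ((F.PL p (ee a), 0) : ST) = (ee a, 0) - F.n p a • (F.n p, 0) := by
      simp [Mv.PL, inner_ee]
    rw [this]
    simp only [map_sub, map_smul, hL, smul_eq_mul]
    rfl
  have hs : ∑ a, F.n p a * L (F.n p) a = 0 := by
    rw [← inner_eq_sum]
    exact hn _
  have : levelSetMeanCurv φ p.1 p.2 = LinearMap.trace ℝ E L.toLinearMap := by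
    rw [← hL1]; rfl
  rw [this, trace_eq, Mv.H, Finset.sum_apply]
  simp only [hA, Finset.sum_sub_distrib, hs, sub_zero]

end Crest.Agent.N250.Br

end
end

-- ▼ part N250/GB/Conn
section

/-!
Row 250, leaf G5 (helper58): every time slice of a smooth compact mean curvature flow is compact,
and connected when the initial one is; properness and openness of the time projection.
-/

set_option autoImplicit false

noncomputable section

namespace Crest.Agent.N250.GB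

open Crest.GeometryTopology.MCF Set Filter Topology

/-- a function with nonzero spatial gradient, paired with time, is a submersion; small boxes have
connected slices of the zero set -/
theorem box_slices {φ : E × ℝ → ℝ} {x : E} {t : ℝ} (hφ : ContDiffAt ℝ 1 φ (x, t))
    (hg : gradX φ x t ≠ 0) (h0 : φ (x, t) = 0) {O : Set (E × ℝ)} (hO : O ∈ 𝓝 (x, t)) :
    ∃ V : Set (E × ℝ), IsOpen V ∧ (x, t) ∈ V ∧ V ⊆ O ∧
      ∀ᶠ s in 𝓝 t, IsConnected {y : E | φ (y, s) = 0 ∧ (y, s) ∈ V} := by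
  have hd : HasStrictFDerivAt φ (fderiv ℝ φ (x, t)) (x, t) := hφ.hasStrictFDerivAt (by simp)
  set D := fderiv ℝ φ (x, t) with hD
  have hf : HasStrictFDerivAt (fun p : E × ℝ => (φ p, p.2))
      (D.prod (ContinuousLinearMap.snd ℝ E ℝ)) (x, t) :=
    hd.prodMk hasStrictFDerivAt_snd
  have hv : ∃ v : E, D (v, 0) ≠ 0 := by
    by_contra hn
    push Not at hn
    apply hg
    have h1 : HasFDerivAt (fun y : E => φ (y, t))
        (D.comp (ContinuousLinearMap.inl ℝ E ℝ)) x :=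
      hd.hasFDerivAt.comp x (hasFDerivAt_prodMk_left x t)
    have h2 : D.comp (ContinuousLinearMap.inl ℝ E ℝ) = 0 := by
      ext v
      simpa using hn v
    unfold gradX gradient
    rw [h1.fderiv, h2]
    simp
  obtain ⟨v, hv⟩ := hv
  have hf' : (D.prod (ContinuousLinearMap.snd ℝ E ℝ)).range = ⊤ := by
    rw [LinearMap.range_eq_top]
    rintro ⟨a, b⟩
    refine ⟨((a - D (0, b)) / D (v, 0)) • ((v, 0) : E × ℝ) + (0, b), ?_⟩
    ext
    · simp only [ContinuousLinearMap.coe_coe, ContinuousLinearMap.prod_apply, map_add, map_smul,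
        smul_eq_mul, Prod.fst_add, Prod.smul_fst]
      field_simp
      ring
    · simp
  set e := hf.implicitToOpenPartialHomeomorph _ _ hf' with he
  have hs : (x, t) ∈ e.source := hf.mem_implicitToOpenPartialHomeomorph_source hf'
  have hex : e (x, t) = ((0, t), 0) := by
    rw [he, hf.implicitToOpenPartialHomeomorph_self hf', h0]
  have hfst : ∀ p, (e p).1 = (φ p, p.2) := fun p => hf.implicitToOpenPartialHomeomorph_fst hf' p
  have hT : e.target ∩ e.symm ⁻¹' O ∈ 𝓝 (e (x, t)) := by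
    refine inter_mem (e.open_target.mem_nhds (e.map_source hs)) ?_
    apply (e.continuousAt_symm (e.map_source hs)).preimage_mem_nhds
    rwa [e.left_inv hs]
  obtain ⟨r, hr, hb⟩ := Metric.mem_nhds_iff.1 hT
  refine ⟨e.source ∩ e ⁻¹' Metric.ball (e (x, t)) r,
    e.isOpen_inter_preimage Metric.isOpen_ball, ⟨hs, Metric.mem_ball_self hr⟩, ?_, ?_⟩
  · rintro p ⟨hp, hp2⟩
    have := (hb hp2).2
    rwa [mem_preimage, e.left_inv hp] at this
  · filter_upwards [Metric.ball_mem_nhds t hr] with s hs'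
    have hmem : ∀ k ∈ Metric.ball (0 : (D.prod (ContinuousLinearMap.snd ℝ E ℝ)).ker) r,
        (((0 : ℝ), s), k) ∈ Metric.ball (e (x, t)) r := by
      intro k hk
      rw [hex, ← ball_prod_same, ← ball_prod_same]
      exact ⟨⟨Metric.mem_ball_self hr, hs'⟩, hk⟩
    have heq : {y : E | φ (y, s) = 0 ∧ (y, s) ∈ e.source ∩ e ⁻¹' Metric.ball (e (x, t)) r} =
        (fun k => (e.symm ((0, s), k)).1) '' Metric.ball 0 r := by
      ext y
      constructor
      · rintro ⟨h1, h2, h3⟩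
        have h4 : e (y, s) = ((0, s), (e (y, s)).2) := by
          ext1
          · rw [hfst, h1]
          · rfl
        refine ⟨(e (y, s)).2, ?_, ?_⟩
        · have h5 : e (y, s) ∈ Metric.ball (e (x, t)) r := h3
          rw [hex, ← ball_prod_same] at h5
          exact h5.2
        · show (e.symm ((0, s), (e (y, s)).2)).1 = y
          rw [← h4, e.left_inv h2]
      · rintro ⟨k, hk, rfl⟩
        have h1 := (hb (hmem k hk)).1
        have h2 := hfst (e.symm ((0, s), k))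
        rw [e.right_inv h1] at h2
        have h3 : (e.symm ((0, s), k)).2 = s := (congrArg Prod.snd h2).symm
        have h4 : ((e.symm ((0, s), k)).1, s) = e.symm ((0, s), k) := Prod.ext rfl h3.symm
        show φ (_, s) = 0 ∧ _
        rw [h4]
        refine ⟨(congrArg Prod.fst h2).symm, e.map_target h1, ?_⟩
        rw [mem_preimage, e.right_inv h1]
        exact hmem k hk
    rw [heq]
    refine ((convex_ball _ _).isConnected ⟨0, Metric.mem_ball_self hr⟩).image _ ?_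
    refine continuous_fst.comp_continuousOn (e.continuousOn_symm.comp (by fun_prop) ?_)
    intro k hk
    exact (hb (hmem k hk)).1

variable {M : ℝ → Set E} {T : ℝ}

/-- small spacetime boxes around a point of the flow have connected time slices -/
theorem mcf_box (hM : IsSmoothMCF M T) {t : ℝ} (ht : t ∈ Ico 0 T) {x : E} (hx : x ∈ M t)
    {O : Set (E × ℝ)} (hO : O ∈ 𝓝 (x, t)) :
    ∃ V : Set (E × ℝ), IsOpen V ∧ (x, t) ∈ V ∧ V ⊆ O ∧
      ∀ᶠ s in 𝓝[Ico 0 T] t, IsConnected {y : E | y ∈ M s ∧ (y, s) ∈ V} := by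
  obtain ⟨W, φ, hW, ⟨hWo, hφ, hg, hz⟩, -⟩ := hM.2.2 t ht x hx
  have hWn := hWo.mem_nhds hW
  obtain ⟨V, hVo, hxV, hVO, hV⟩ := box_slices
    ((hφ.contDiffAt hWn).of_le (by exact_mod_cast le_top)) (hg _ hW) ((hz _ hW ht).1 hx)
    (inter_mem hO hWn)
  refine ⟨V, hVo, hxV, fun p hp => (hVO hp).1, ?_⟩
  filter_upwards [mem_nhdsWithin_of_mem_nhds hV, self_mem_nhdsWithin] with s hs hsI
  convert hs using 2
  ext y
  constructor
  · rintro ⟨h1, h2⟩
    exact ⟨(hz (y, s) (hVO h2).2 hsI).1 h1, h2⟩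
  · rintro ⟨h1, h2⟩
    exact ⟨(hz (y, s) (hVO h2).2 hsI).2 h1, h2⟩

/-- openness of the time projection: points of the flow do not disappear -/
theorem mcf_open (hM : IsSmoothMCF M T) {t : ℝ} (ht : t ∈ Ico 0 T) {x : E} (hx : x ∈ M t)
    {O : Set (E × ℝ)} (hO : O ∈ 𝓝 (x, t)) :
    ∀ᶠ s in 𝓝[Ico 0 T] t, ∃ y ∈ M s, (y, s) ∈ O := by
  obtain ⟨V, -, -, hVO, hV⟩ := mcf_box hM ht hx hO
  filter_upwards [hV] with s hs
  obtain ⟨y, h1, h2⟩ := hs.nonempty
  exact ⟨y, h1, hVO h2⟩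

/-- the track over a compact set of times is compact -/
theorem mcf_track_compact (hM : IsSmoothMCF M T) {K : Set ℝ} (hK : IsCompact K)
    (hKI : K ⊆ Ico 0 T) : IsCompact {p : E × ℝ | p.2 ∈ K ∧ p.1 ∈ M p.2} := by
  obtain ⟨R, hR⟩ := hM.2.1
  have h1 : {p : E × ℝ | p.2 ∈ K ∧ p.1 ∈ M p.2} =
      (Metric.closedBall 0 R ×ˢ K) ∩ closure (track M T) := by
    ext p
    constructor
    · rintro ⟨h1, h2⟩
      exact ⟨⟨hR _ (hKI h1) h2, h1⟩, subset_closure ⟨hKI h1, h2⟩⟩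
    · rintro ⟨⟨-, h1⟩, h2⟩
      exact ⟨h1, hM.1 p h2 (hKI h1)⟩
  rw [h1]
  exact ((isCompact_closedBall _ _).prod hK).inter_right isClosed_closure

/-- every slice is compact -/
theorem mcf_compact (hM : IsSmoothMCF M T) {t : ℝ} (ht : t ∈ Ico 0 T) : IsCompact (M t) := by
  have h := (mcf_track_compact hM (isCompact_singleton (x := t))
    (by simpa using ht)).image continuous_fst
  convert h using 1
  ext y
  constructor
  · intro hy
    exact ⟨(y, t), ⟨rfl, hy⟩, rfl⟩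
  · rintro ⟨p, ⟨h1, h2⟩, rfl⟩
    rw [mem_singleton_iff] at h1
    rwa [h1] at h2

/-- properness of the time projection: points of the flow do not appear -/
theorem mcf_proper (hM : IsSmoothMCF M T) {t : ℝ} (ht : t ∈ Ico 0 T)
    {O : Set (E × ℝ)} (hO : IsOpen O) (hMO : ∀ y ∈ M t, (y, t) ∈ O) :
    ∀ᶠ s in 𝓝[Ico 0 T] t, ∀ y ∈ M s, (y, s) ∈ O := by
  obtain ⟨R, hR⟩ := hM.2.1
  have hK : IsCompact (((Metric.closedBall (0 : E) R ×ˢ Icc 0 T) ∩ closure (track M T)) \ O) :=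
    (((isCompact_closedBall _ _).prod isCompact_Icc).inter_right isClosed_closure).diff hO
  have hc := (hK.image continuous_snd).isClosed.isOpen_compl
  have ht' : t ∈ (Prod.snd '' (((Metric.closedBall (0 : E) R ×ˢ Icc 0 T) ∩
      closure (track M T)) \ O))ᶜ := by
    rintro ⟨⟨y, s⟩, ⟨⟨-, h1⟩, h2⟩, rfl⟩
    exact h2 (hMO y (hM.1 _ h1 ht))
  filter_upwards [mem_nhdsWithin_of_mem_nhds (hc.mem_nhds ht'), self_mem_nhdsWithin]
    with s hs hsI y hy
  by_contra hn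
  exact hs ⟨(y, s), ⟨⟨⟨hR s hsI hy, hsI.1, hsI.2.le⟩, subset_closure ⟨hsI, hy⟩⟩, hn⟩, rfl⟩

theorem mcf_conn_near (hM : IsSmoothMCF M T) {t : ℝ} (ht : t ∈ Ico 0 T)
    (hc : IsConnected (M t)) : ∀ᶠ s in 𝓝[Ico 0 T] t, IsConnected (M s) := by
  classical
  have hb := fun x : M t => mcf_box hM ht x.2 (univ_mem (f := 𝓝 ((x : E), t)))
  choose V hVo hxV hVO hV using hb
  obtain ⟨F, hF⟩ := (mcf_compact hM ht).elim_finite_subcover
    (fun x : M t => (fun y : E => (y, t)) ⁻¹' V x)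
    (fun x => (hVo x).preimage (by fun_prop)) (fun y hy => mem_iUnion.2 ⟨⟨y, hy⟩, hxV ⟨y, hy⟩⟩)
  have h1 : ∀ᶠ s in 𝓝[Ico 0 T] t, ∀ i ∈ F, IsConnected {y : E | y ∈ M s ∧ (y, s) ∈ V i} :=
    (F.eventually_all).2 fun i _ => hV i
  have h2 : ∀ᶠ s in 𝓝[Ico 0 T] t, ∀ y ∈ M s, (y, s) ∈ ⋃ i ∈ F, V i :=
    mcf_proper hM ht (isOpen_biUnion fun i _ => hVo i) (fun y hy => by simpa using hF hy)
  have h3 : ∀ᶠ s in 𝓝[Ico 0 T] t, ∀ i ∈ F, ∀ j ∈ F,
      (∃ y ∈ M t, (y, t) ∈ V i ∩ V j) → ∃ y ∈ M s, (y, s) ∈ V i ∩ V j := by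
    refine (F.eventually_all).2 fun i _ => (F.eventually_all).2 fun j _ => ?_
    by_cases h : ∃ y ∈ M t, (y, t) ∈ V i ∩ V j
    · obtain ⟨y, hy, hyV⟩ := h
      filter_upwards [mcf_open hM ht hy (((hVo i).inter (hVo j)).mem_nhds hyV)] with s hs _ using hs
    · exact Eventually.of_forall fun s h' => absurd h' h
  obtain ⟨x₀, hx₀⟩ := hc.nonempty
  filter_upwards [h1, h2, h3, mcf_open hM ht hx₀ univ_mem] with s h1 h2 h3 h4
  refine ⟨by obtain ⟨y, hy, -⟩ := h4; exact ⟨y, hy⟩, ?_⟩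
  intro u v hu hv huv ⟨a, haM, hau⟩ ⟨b, hbM, hbv⟩
  by_contra hn
  have hdisj : ∀ y ∈ M s, y ∈ u → y ∈ v → False := fun y h1 h2 h3 => hn ⟨y, h1, h2, h3⟩
  -- every box has one colour
  have hcol : ∀ i ∈ F, {y : E | y ∈ M s ∧ (y, s) ∈ V i} ⊆ u ∨
      {y : E | y ∈ M s ∧ (y, s) ∈ V i} ⊆ v := by
    intro i hi
    by_contra hcon
    push Not at hcon
    obtain ⟨p, hp, hpu⟩ := not_subset.1 hcon.1
    obtain ⟨q, hq, hqv⟩ := not_subset.1 hcon.2
    obtain ⟨y, hy, hyu, hyv⟩ := (h1 i hi).isPreconnected u v hu hv (fun y hy => huv hy.1)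
      ⟨q, hq, (huv hq.1).resolve_right hqv⟩ ⟨p, hp, (huv hp.1).resolve_left hpu⟩
    exact hdisj y hy.1 hyu hyv
  let A : Set E → Set E := fun w => ⋃ i ∈ {i | i ∈ F ∧ {y : E | y ∈ M s ∧ (y, s) ∈ V i} ⊆ w},
    (fun y : E => (y, t)) ⁻¹' V i
  have hAo : ∀ w, IsOpen (A w) := fun w =>
    isOpen_biUnion fun i _ => (hVo i).preimage (by fun_prop)
  have hne : ∀ w₁ w₂ : Set E, (∀ y ∈ M s, y ∈ w₁ → y ∈ w₂ → False) →
      (∀ i ∈ F, {y : E | y ∈ M s ∧ (y, s) ∈ V i} ⊆ w₁ ∨ {y : E | y ∈ M s ∧ (y, s) ∈ V i} ⊆ w₂) →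
      ∀ a ∈ M s, a ∈ w₁ → (M t ∩ A w₁).Nonempty := by
    intro w₁ w₂ hd hc a ha haw
    obtain ⟨i, hi, hai⟩ : ∃ i ∈ F, (a, s) ∈ V i := by simpa using h2 a ha
    refine ⟨i, i.2, mem_biUnion (x := i) ⟨hi, (hc i hi).resolve_right fun h => ?_⟩ (hxV i)⟩
    exact hd a ha haw (h ⟨ha, hai⟩)
  obtain ⟨y, hy, hyu, hyv⟩ := hc.isPreconnected (A u) (A v) (hAo u) (hAo v) (by
      intro y hy
      obtain ⟨i, hi, hyi⟩ : ∃ i ∈ F, (y, t) ∈ V i := by simpa using hF hy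
      rcases hcol i hi with h | h
      · exact Or.inl (mem_biUnion (x := i) ⟨hi, h⟩ hyi)
      · exact Or.inr (mem_biUnion (x := i) ⟨hi, h⟩ hyi))
    (hne u v hdisj hcol a haM hau)
    (hne v u (fun y h1 h2 h3 => hdisj y h1 h3 h2) (fun i hi => (hcol i hi).symm) b hbM hbv)
  obtain ⟨i, ⟨hi, hiu⟩, hyi⟩ := mem_iUnion₂.1 hyu |>.imp fun i h => (by
    obtain ⟨h1, h2⟩ := h; exact (⟨h1, h2⟩ : _ ∧ _))
  obtain ⟨j, ⟨hj, hjv⟩, hyj⟩ := mem_iUnion₂.1 hyv |>.imp fun i h => (by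
    obtain ⟨h1, h2⟩ := h; exact (⟨h1, h2⟩ : _ ∧ _))
  obtain ⟨z, hz, hzi, hzj⟩ := h3 i hi j hj ⟨y, hy, hyi, hyj⟩
  exact hdisj z hz (hiu ⟨hz, hzi⟩) (hjv ⟨hz, hzj⟩)

theorem mcf_nconn_near (hM : IsSmoothMCF M T) {t : ℝ} (ht : t ∈ Ico 0 T)
    (hc : ¬ IsConnected (M t)) : ∀ᶠ s in 𝓝[Ico 0 T] t, ¬ IsConnected (M s) := by
  rcases (M t).eq_empty_or_nonempty with h | h
  · filter_upwards [mcf_proper hM ht isOpen_empty (by simp [h])] with s hs hcs
    obtain ⟨y, hy⟩ := hcs.nonempty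
    exact hs y hy
  have hp : ¬ IsPreconnected (M t) := fun h' => hc ⟨h, h'⟩
  rw [isPreconnected_iff_subset_of_fully_disjoint_closed (mcf_compact hM ht).isClosed] at hp
  push Not at hp
  obtain ⟨u, v, hu, hv, huv, hd, hnu, hnv⟩ := hp
  obtain ⟨U, W, hU, hW, huU, hvW, hUW⟩ := normal_separation hu hv hd
  obtain ⟨a, ha, hau⟩ := not_subset.1 hnu
  obtain ⟨b, hb, hbv⟩ := not_subset.1 hnv
  have haW : a ∈ W := hvW ((huv ha).resolve_left hau)
  have hbU : b ∈ U := huU ((huv hb).resolve_right hbv)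
  filter_upwards [mcf_proper hM ht ((hU.union hW).preimage continuous_fst)
      (fun y hy => (huv hy).imp (fun h => huU h) fun h => hvW h),
    mcf_open hM ht ha ((hW.preimage continuous_fst).mem_nhds haW),
    mcf_open hM ht hb ((hU.preimage continuous_fst).mem_nhds hbU)] with s h1 h2 h3 hcs
  obtain ⟨p, hp, hpW⟩ := h2
  obtain ⟨q, hq, hqU⟩ := h3
  obtain ⟨y, -, hyU, hyW⟩ := hcs.isPreconnected U W hU hW h1 ⟨q, hq, hqU⟩ ⟨p, hp, hpW⟩
  exact hUW.le_bot ⟨hyU, hyW⟩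

/-- **G5**: all slices are connected -/
theorem mcf_connected (hM : IsSmoothMCF M T) (hconn : IsConnected (M 0)) {t : ℝ}
    (ht : t ∈ Ico 0 T) : IsConnected (M t) := by
  have h0 : (0 : ℝ) ∈ Ico 0 T := ⟨le_rfl, ht.1.trans_lt ht.2⟩
  refine isPreconnected_Ico.induction₂' (fun s s' => IsConnected (M s) → IsConnected (M s'))
    ?_ (fun _ _ _ _ _ _ h1 h2 h => h2 (h1 h)) h0 ht hconn
  intro s hs
  by_cases hc : IsConnected (M s)
  · filter_upwards [mcf_conn_near hM hs hc] with s' hs' using ⟨fun _ => hs', fun _ => hc⟩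
  · filter_upwards [mcf_nconn_near hM hs hc] with s' hs'
      using ⟨fun h => absurd h hc, fun h => absurd h hs'⟩

end Crest.Agent.N250.GB
end
end

-- ▼ part N250/Br/Init
section

/-!
# Row 250, Prelude bridge (helper37): `InitStmt`, `EntryS`
-/

set_option autoImplicit false
open MeasureTheory Set Filter Topology
open scoped ContDiff InnerProductSpace
open Crest.GeometryTopology.MCF

noncomputable section

namespace Crest.Agent.N250.Br

/-- the moving surface given by a global defining function -/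
def ofPhi (Φ : ST → ℝ) (I : Set ℝ) : Mv :=
  ⟨{p | p.2 ∈ I ∧ Φ p = 0}, fun q => ‖gradX Φ q.1 q.2‖⁻¹ • gradX Φ q.1 q.2,
    fun q => -dT Φ q / ‖gradX Φ q.1 q.2‖⟩

theorem ofPhi_mcf {Φ : ST → ℝ} {I : Set ℝ} (hI : IsOpen I) (hΦ : ContDiffOn ℝ ∞ Φ (univ ×ˢ I))
    (h : ∀ p : ST, p.2 ∈ I → Φ p = 0 → gradX Φ p.1 p.2 ≠ 0 ∧
      dT Φ p = ‖gradX Φ p.1 p.2‖ * levelSetMeanCurv Φ p.1 p.2) : (ofPhi Φ I).IsMCF := by
  have hO : IsOpen (univ ×ˢ I : Set ST) := isOpen_univ.prod hI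
  have hW : IsOpen ((univ ×ˢ I : Set ST) ∩ (fun q : ST => gradX Φ q.1 q.2) ⁻¹' {0}ᶜ) :=
    (contDiffOn_gradX hO hΦ).continuousOn.isOpen_inter_preimage hO isOpen_compl_singleton
  have hL : (ofPhi Φ I).Loc ((univ ×ˢ I : Set ST) ∩ (fun q : ST => gradX Φ q.1 q.2) ⁻¹' {0}ᶜ) Φ :=
    ⟨hW, hΦ.mono inter_subset_left, fun q hq => hq.2,
      fun q hq => ⟨fun h => h.2, fun h => ⟨hq.1.2, h⟩⟩, fun _ _ _ => rfl, fun _ _ _ => rfl⟩
  have hm : ∀ p ∈ (ofPhi Φ I).M,
      p ∈ (univ ×ˢ I : Set ST) ∩ (fun q : ST => gradX Φ q.1 q.2) ⁻¹' {0}ᶜ :=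
    fun p hp => ⟨⟨trivial, hp.1⟩, (h p hp.1 hp.2).1⟩
  have hR : (ofPhi Φ I).Reg := fun p hp => ⟨_, Φ, hm p hp, hL⟩
  refine ⟨hR, fun p hp => ?_⟩
  rw [H_eq hR hL (hm p hp) hp]
  have h1 := (h p hp.1 hp.2)
  have h2 : ‖gradX Φ p.1 p.2‖ ≠ 0 := norm_ne_zero_iff.2 h1.1
  change -dT Φ p / ‖gradX Φ p.1 p.2‖ = _
  rw [h1.2]
  field_simp

theorem ofPhi_proper {Φ : ST → ℝ} {I : Set ℝ} (hI : IsOpen I)
    (hΦ : ContinuousOn Φ (univ ×ˢ I)) : (ofPhi Φ I).Proper (univ ×ˢ I) := by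
  intro p hp hq
  refine ⟨hq.2, ?_⟩
  have hc : ContinuousAt Φ p := hΦ.continuousAt ((isOpen_univ.prod hI).mem_nhds hq)
  have := hc.continuousWithinAt.mem_closure hp (t := {0}) (fun q hq => hq.2)
  simpa using this

theorem box_one {F : Mv} (hF : F.Reg) {p : ST} (hp : p ∈ F.M) : F.box (fun _ => 1) p = 0 := by
  have h1 : F.Dt (fun _ => 1) p = 0 := hF.td_const hp 1 (hF.tg_vel hp)
  have h2 : ∀ a, F.D a (F.D a fun _ => 1) p = 0 := fun a => by
    rw [Mv.D_congr' hp (f := F.D a fun _ => 1) (g := fun _ => 0) 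
      (fun q hq => hF.td_const hq 1 (hF.tg_PL hq _))]
    exact hF.td_const hp 0 (hF.tg_PL hp _)
  simp only [Mv.box, Pi.sub_apply, h1, N222.Pre.lap, Finset.sum_apply]
  simp [h2]

/-- flows whose tracks over compact sets of times are compact -/
def CT (F : Mv) (I : Set ℝ) : Prop := ∀ K, IsCompact K → K ⊆ I → IsCompact {p | p ∈ F.M ∧ p.2 ∈ K}

theorem CT.sl {F : Mv} {I : Set ℝ} (h : CT F I) {t : ℝ} (ht : t ∈ I) : IsCompact (F.sl t) := by
  have := (h {t} isCompact_singleton (singleton_subset_iff.2 ht)).image continuous_fst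
  convert this using 1
  ext x
  constructor
  · intro hx
    exact ⟨(x, t), ⟨hx, rfl⟩, rfl⟩
  · rintro ⟨⟨y, s⟩, ⟨h1, h2⟩, rfl⟩
    obtain rfl : s = t := h2
    exact h1

theorem CT.fin (hM : MuFinS) {F : Mv} (hF : F.Reg) {I : Set ℝ} (h : CT F I) {t : ℝ} (ht : t ∈ I) :
    IsFiniteMeasure (F.mu t) := by
  obtain ⟨C, hC⟩ := hM F hF _ (h {t} isCompact_singleton (singleton_subset_iff.2 ht))
    (fun _ hp => hp.1)
  obtain ⟨r, hr⟩ := (h.sl ht).isBounded.subset_ball (0 : E)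
  refine ⟨?_⟩
  have h1 : F.mu t univ = F.mu t (F.sl t) := by
    rw [Mv.mu, Measure.restrict_apply_univ, Measure.restrict_apply_self]
  rw [h1]
  refine lt_of_le_of_lt (le_trans (measure_mono ?_) (hC t 0 (max r 1) (by positivity)))
    ENNReal.ofReal_lt_top
  intro x hx
  exact ⟨⟨hx, rfl⟩, Metric.ball_subset_ball (le_max_left _ _) (hr hx)⟩

/-- monotonicity for compact flows -/
theorem CT.mono (hW : WMonoS) {F : Mv} (hF : F.IsMCF) {a b : ℝ} (h : CT F (Ioo a b)) (X : ST)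
    {t₀ t : ℝ} (h0 : a < t₀) (h1 : t₀ ≤ t) (h2 : t < b) (h3 : t < X.2) :
    F.Fs t X.1 (X.2 - t) ≤ F.Fs t₀ X.1 (X.2 - t₀) := by
  obtain ⟨a', ha1, ha2⟩ := exists_between h0
  obtain ⟨b', hb1, hb2⟩ := exists_between (lt_min h2 h3)
  have hb3 : b' < b := hb2.trans_le (min_le_left _ _)
  have hb4 : b' < X.2 := hb2.trans_le (min_le_right _ _)
  have hd := hW F hF X (fun _ => 1) (Ioo a' b') isOpen_Ioo (fun s hs => hs.2.trans hb4)
    contDiffOn_const ⟨_, h (Icc a' b') isCompact_Icc (Icc_subset_Ioo ha1 hb3), fun _ hp => hp.1,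
      fun p hp hq hn => (hn ⟨hp, Ioo_subset_Icc_self hq⟩).elim⟩
  have anti : AntitoneOn (fun s => ∫ x, (1 : ℝ) * Phi X (x, s) ∂F.mu s) (Ioo a' b') := by
    refine antitoneOn_of_deriv_nonpos (convex_Ioo _ _)
      (fun s hs => (hd s hs).continuousAt.continuousWithinAt)
      (fun s hs => (hd s (interior_subset hs)).differentiableAt.differentiableWithinAt) ?_
    intro s hs
    have hs' := interior_subset hs
    rw [(hd s hs').deriv]
    refine integral_nonpos_of_ae ?_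
    have hc := h.sl (t := s) ⟨ha1.trans hs'.1, hs'.2.trans hb3⟩
    filter_upwards [ae_restrict_mem (μ := (μHE[2] : Measure E)) hc.measurableSet] with x hx
    rw [box_one hF.1 hx]
    have := Gau.gau_pos X.1 (s := X.2 - s) (by linarith [hs'.2]) x
    have h4 : 0 ≤ F.dev X (x, s) ^ 2 * Phi X (x, s) := mul_nonneg (sq_nonneg _) this.le
    simp only [Pi.zero_apply]
    linarith
  have := anti ⟨ha2, h1.trans_lt hb1⟩ ⟨ha2.trans_le h1, hb1⟩ h1
  simpa only [one_mul, Phi, Mv.Fs] using this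

/-- area ratios of compact flows, away from the initial time -/
theorem CT.ar (hM : MuFinS) (hW : WMonoS) {F : Mv} (hF : F.IsMCF) {a b c : ℝ}
    (h : CT F (Ioo a b)) (hac : a < c) (hcb : c < b) : ∃ Λ : ℝ, 0 ≤ Λ ∧ ∀ t ∈ Ioo c b, ∀ y r, 0 < r →
      F.mu t (Metric.ball y r) ≤ ENNReal.ofReal (Λ * r ^ 2) := by
  obtain ⟨t₀, h0, h1⟩ := exists_between hac
  have hd : 0 < c - t₀ := sub_pos.2 h1
  have := h.fin hM hF.1 (t := t₀) ⟨h0, h1.trans hcb⟩
  refine ⟨4 * Real.pi * Real.exp (1 / 4) * ((F.mu t₀).real univ * (4 * Real.pi * (c - t₀))⁻¹),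
    by positivity, fun t ht y r hr => Gau.ball_le y hr ?_⟩
  have := h.fin hM hF.1 (t := t) ⟨hac.trans ht.1, ht.2⟩
  have hb : ∀ s, 0 < s → ∀ x, gau y s x ≤ (4 * Real.pi * s)⁻¹ := fun s hs x => by
    refine mul_le_of_le_one_right (by positivity) (Real.exp_le_one_iff.2 ?_)
    exact div_nonpos_of_nonpos_of_nonneg (neg_nonpos.2 (sq_nonneg _)) (by positivity)
  have hi : ∀ (μ : Measure E) [IsFiniteMeasure μ] (s : ℝ), 0 < s → Integrable (gau y s) μ :=
    fun μ _ s hs => Integrable.of_bound (Gau.gau_cont y s).aestronglyMeasurable (4 * Real.pi * s)⁻¹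
      (Eventually.of_forall fun x => by
        rw [Real.norm_of_nonneg (Gau.gau_pos y hs x).le]; exact hb s hs x)
  have hr2 : 0 < r ^ 2 := by positivity
  rw [← ofReal_integral_eq_lintegral_ofReal (hi _ _ hr2)
    (Eventually.of_forall fun x => (Gau.gau_pos y hr2 x).le)]
  refine ENNReal.ofReal_le_ofReal ?_
  have k := h.mono hW hF (y, t + r ^ 2) h0 (h1.trans ht.1).le ht.2 (by simpa using hr2)
  simp only [add_sub_cancel_left, Mv.Fs] at k
  refine k.trans ?_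
  have hs : c - t₀ ≤ t + r ^ 2 - t₀ := by linarith [ht.1]
  have hs0 : 0 < t + r ^ 2 - t₀ := hd.trans_le hs
  calc ∫ x, gau y (t + r ^ 2 - t₀) x ∂F.mu t₀ ≤ ∫ _, (4 * Real.pi * (c - t₀))⁻¹ ∂F.mu t₀ := by
        refine integral_mono (hi _ _ hs0) (integrable_const _) fun x => (hb _ hs0 x).trans ?_
        exact inv_anti₀ (by positivity) (mul_le_mul_of_nonneg_left hs (by positivity))
    _ = _ := by rw [integral_const, smul_eq_mul]

/-- the shifted flow on `(c, T - σ)` -/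
theorem entry (hO : OrS) (hM : MuFinS) (hW : WMonoS) {M : ℝ → Set E} {T : ℝ}
    (h : IsSmoothMCF M T) (σ : ℝ) {c b : ℝ} (hc : -σ < c) (hcb : c < b) (hb : σ + b = T) :
    ∃ (F : Mv) (Λ R : ℝ), Fl F (Ioo c b) Λ ∧ (∀ t ∈ Ioo c b, F.sl t = M (σ + t)) ∧
      ∀ p ∈ F.M, ‖p.1‖ ≤ R := by
  obtain ⟨Φ, hΦ, hm⟩ := hO M T h
  set Ψ : ST → ℝ := fun p => Φ (p.1, σ + p.2) with hΨ
  have hin : ∀ s ∈ Ioo (-σ) b, σ + s ∈ Ioo 0 T := fun s hs =>
    ⟨by linarith [hs.1], by linarith [hs.2]⟩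
  have hs : ContDiffOn ℝ ∞ Ψ (univ ×ˢ Ioo (-σ) b) :=
    hΦ.comp (by fun_prop) fun p hp => ⟨trivial, hin _ hp.2⟩
  have hz : ∀ p : ST, p.2 ∈ Ioo (-σ) b → (p.1 ∈ M (σ + p.2) ↔ Ψ p = 0) := fun p hp =>
    (hm (p.1, σ + p.2) (hin _ hp)).1
  have he : ∀ p : ST, p.2 ∈ Ioo (-σ) b → Ψ p = 0 → gradX Ψ p.1 p.2 ≠ 0 ∧
      dT Ψ p = ‖gradX Ψ p.1 p.2‖ * levelSetMeanCurv Ψ p.1 p.2 := fun p hp h0 => by
    obtain ⟨h1, h2⟩ := (hm (p.1, σ + p.2) (hin _ hp)).2 ((hz p hp).2 h0)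
    refine ⟨h1, ?_⟩
    have : dT Ψ p = dT Φ (p.1, σ + p.2) := deriv_comp_const_add (fun s => Φ (p.1, s)) σ p.2
    rw [this, h2]
    rfl
  have hsub : Ioo c b ⊆ Ioo (-σ) b := Ioo_subset_Ioo_left hc.le
  have hCT : CT (ofPhi Ψ (Ioo (-σ) b)) (Ioo (-σ) b) := by
    intro K hK hKI
    have h1 := GB.mcf_track_compact h (K := (fun s => σ + s) '' K) (hK.image (by fun_prop))
      (by rintro _ ⟨s, hs, rfl⟩; exact Ioo_subset_Ico_self (hin _ (hKI hs)))
    convert h1.image (f := fun p : ST => ((p.1, p.2 - σ) : ST)) (by fun_prop) using 1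
    ext p
    constructor
    · rintro ⟨h2, h3⟩
      exact ⟨(p.1, σ + p.2), ⟨⟨_, h3, rfl⟩, (hz p h2.1).2 h2.2⟩, by simp⟩
    · rintro ⟨⟨x, _⟩, ⟨⟨s, hs, rfl⟩, h3⟩, rfl⟩
      simp only [add_sub_cancel_left]
      exact ⟨⟨hKI hs, (hz (x, s) (hKI hs)).1 h3⟩, hs⟩
  obtain ⟨Λ, -, hΛ⟩ := hCT.ar hM hW (ofPhi_mcf isOpen_Ioo hs he) hc hcb
  obtain ⟨R, hR⟩ := h.2.1
  have hs' : ContDiffOn ℝ ∞ Ψ (univ ×ˢ Ioo c b) := hs.mono (prod_mono le_rfl hsub)
  refine ⟨ofPhi Ψ (Ioo c b), Λ, R, ⟨ofPhi_mcf isOpen_Ioo hs' fun p hp => he p (hsub hp),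
    fun p hp => hp.1, ofPhi_proper isOpen_Ioo hs'.continuousOn, fun t y r hr => ?_⟩,
    fun t ht => ?_, fun p hp => ?_⟩
  · by_cases ht : t ∈ Ioo c b
    · have : (ofPhi Ψ (Ioo c b)).sl t = (ofPhi Ψ (Ioo (-σ) b)).sl t := by
        ext x
        exact ⟨fun h => ⟨hsub ht, h.2⟩, fun h => ⟨ht, h.2⟩⟩
      rw [Mv.mu, this]
      exact hΛ t ht y r hr
    · have : (ofPhi Ψ (Ioo c b)).sl t = ∅ := eq_empty_of_forall_notMem fun x h => ht h.1
      rw [Mv.mu, this]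
      simp
  · ext x
    exact ⟨fun h => (hz (x, t) (hsub ht)).2 h.2, fun h => ⟨ht, (hz (x, t) (hsub ht)).1 h⟩⟩
  · have := hR _ (Ioo_subset_Ico_self (hin _ (hsub hp.1))) ((hz p (hsub hp.1)).2 hp.2)
    simpa using this


theorem init_of (hO : OrS) (hM : MuFinS) (hW : WMonoS) (hL : LgbFlowS) : InitStmt := by
  intro M T hT h _ hconn
  obtain ⟨F, Λ, R, h1, h2, h3⟩ := entry hO hM hW h T (c := -(T / 2)) (b := 0) (by linarith)
    (by linarith) (add_zero T)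
  obtain ⟨G, hG⟩ := hL F _ _ Λ h1 ⟨R, h3⟩ fun t ht => by
    rw [h2 t ht]
    exact GB.mcf_connected h hconn ⟨by linarith [ht.1], by linarith [ht.2]⟩
  refine ⟨F, Λ, G, ⟨by linarith, h1, ⟨R, h3⟩, hG⟩, fun x t ht => ?_⟩
  rw [← h2 t ht]
  rfl

end Crest.Agent.N250.Br

end
end

-- ▼ part N250/Br/Out
section

/-!
# Row 250, Prelude bridge (helper37): `OutStmt`, `ExitS`
-/

set_option autoImplicit false
open MeasureTheory Set Filter Topology
open scoped ContDiff InnerProductSpace Pointwise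
open Crest.GeometryTopology.MCF

noncomputable section

namespace Crest.Agent.N250.Br

theorem isSelfShrinker {S : Mv} (hS : S.IsShr) (hne : (S.sl 0).Nonempty) :
    IsSelfShrinker (S.sl 0) := by
  have hc : Continuous fun y : E => ((y, 0) : ST) := by fun_prop
  refine ⟨hne, hS.closed.preimage hc, fun x hx => ?_⟩
  obtain ⟨W, φ, hW, h⟩ := hS.reg (x, 0) hx
  refine ⟨(fun y : E => ((y, 0) : ST)) ⁻¹' W, fun y => φ (y, 0), h.isOpen.preimage hc, hW,
    h.sm.comp (by fun_prop) (fun _ hy => hy), fun y hy => h.ne (y, 0) hy,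
    fun y hy => h.mem (y, 0) hy, fun y hy hyS => ?_⟩
  have h1 := hS.eq (y, 0) hyS
  have h2 := H_eq hS.reg h hy hyS
  have h3 := h.n_eq (y, 0) hy hyS
  simp only [Mv.shr, Mv.xn, sub_zero, h2, h3] at h1
  exact sub_eq_zero.1 h1

theorem unresc_sl {S : Mv} (hS : S.Static) {s : ℝ} (hs : s < 0) :
    S.unresc.sl s = (fun z => √(-s) • z) '' S.sl 0 := by
  have hq : 0 < √(-s) := Real.sqrt_pos.2 (by linarith)
  ext x
  simp only [Mv.sl, Mv.unresc, umap, mem_ofPred_eq, hs, true_and, mem_image]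
  rw [hS.mem]
  constructor
  · intro h
    exact ⟨_, h, by rw [smul_smul, mul_inv_cancel₀ hq.ne', one_smul]⟩
  · rintro ⟨z, hz, rfl⟩
    rwa [smul_smul, inv_mul_cancel₀ hq.ne', one_smul]

theorem mem_pp (F : Mv) (x₀ x : E) (lam s : ℝ) :
    (x, s) ∈ ((F.para (x₀, 0) 1).para 0 lam).M ↔ (x₀ + lam⁻¹ • x, s / lam ^ 2) ∈ F.M := by
  simp [Mv.para]

theorem pp_sl {M : ℝ → Set E} {T : ℝ} {F : Mv} (hR : Rep F M T) (x₀ : E) {lam s : ℝ}
    (hl : 0 < lam) (hs : s / lam ^ 2 ∈ Ioo (-(T / 2)) 0) :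
    ((F.para (x₀, 0) 1).para 0 lam).sl s = rescaled M T x₀ lam s := by
  ext x
  simp only [Mv.sl, mem_ofPred_eq, mem_pp, hR _ _ hs, rescaled, mem_image]
  constructor
  · intro h
    refine ⟨_, h, ?_⟩
    rw [add_sub_cancel_left, smul_smul, mul_inv_cancel₀ hl.ne', one_smul]
  · rintro ⟨y, hy, rfl⟩
    rwa [smul_smul, inv_mul_cancel₀ hl.ne', one_smul, add_sub_cancel]

/-- the hypothesis is sphere avoidance (with `0 ≤ r`) -/
theorem out_of (hAv : ∀ F : Mv, F.IsMCF → ∀ (y : E) (r t₁ t₂ : ℝ), 0 ≤ r →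
    F.Proper (Metric.ball y r ×ˢ Icc t₁ t₂) → (∀ x ∈ F.sl t₁, r ≤ dist x y) →
    ∀ t ∈ Icc t₁ t₂, ∀ x ∈ F.sl t, r ^ 2 - 4 * (t - t₁) ≤ dist x y ^ 2) : OutStmt := by
  intro M T x₀ F S Λ hT hF hR hx hS hw ⟨l, hl, hc⟩
  refine ⟨isSelfShrinker hS ?_, ?_⟩
  · by_contra hne
    rw [not_nonempty_iff_eq_empty] at hne
    have hemp : ∀ p, p ∉ S.unresc.M := fun p hp => by
      have : (umap p).1 ∈ S.sl 0 := (hS.st.mem _ _).1 hp.2
      rw [hne] at this
      exact this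
    have hK : IsCompact (Metric.closedBall (0 : E) 3 ×ˢ ({-1} : Set ℝ)) :=
      (isCompact_closedBall _ _).prod isCompact_singleton
    have hev : ∀ᶠ lam in (l : Filter ℝ), Disjoint (Metric.closedBall (0 : E) 3 ×ˢ ({-1} : Set ℝ))
        ((F.para (x₀, 0) 1).para 0 lam).M := by
      refine IsCompact.induction_on hK (p := fun U => ∀ᶠ lam in (l : Filter ℝ),
        Disjoint U ((F.para (x₀, 0) 1).para 0 lam).M) (by simp) ?_ ?_ ?_
      · intro U V hUV hV
        exact hV.mono fun k hk => hk.mono_left hUV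
      · intro U V hU hV
        filter_upwards [hU, hV] with k h1 h2
        exact disjoint_union_left.2 ⟨h1, h2⟩
      · intro p hp
        obtain ⟨U, hU, h⟩ := hc.away p ⟨trivial, by
          have : p.2 = -1 := hp.2
          simp [this]⟩ (hemp p)
        exact ⟨U, mem_nhdsWithin_of_mem_nhds hU, h⟩
    obtain ⟨lam, h1, h2⟩ := (hev.and (hl (eventually_gt_atTop (1 + 2 / T)))).exists
    have h2' : 1 + 2 / T < lam := h2
    have hT2 : 0 < 2 / T := by positivity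
    have hl0 : 0 < lam := by linarith
    have hu : 0 < 1 / lam ^ 2 := by positivity
    have hu2 : 1 / lam ^ 2 < T / 2 := by
      rw [div_lt_iff₀ (by positivity)]
      have a1 : 2 / T < lam ^ 2 := by nlinarith
      rw [div_lt_iff₀ hT] at a1
      linarith
    obtain ⟨t, ht, y, hy, hd⟩ := hx (1 / lam) (by positivity) (1 / lam ^ 2) hu
    have ht' : t - T ∈ Ioo (-(T / 2)) 0 := ⟨by linarith [ht.1], by linarith [ht.2]⟩
    have hyF : y ∈ F.sl (t - T) := (hR y _ ht').2 (by simpa using hy)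
    have key := hAv F hF.mcf x₀ (3 / lam) (-(1 / lam ^ 2)) (t - T) (by positivity)
      (fun p hp hq => hF.proper p hp ⟨trivial, by linarith [hq.2.1], by linarith [hq.2.2, ht.2]⟩)
      (fun x hx => by
        by_contra hn
        rw [not_le] at hn
        have h1' := Set.disjoint_left.1 h1
        refine @h1' (lam • (x - x₀), -1) ⟨?_, rfl⟩ ?_
        · rw [mem_closedBall_zero_iff, norm_smul, Real.norm_of_nonneg hl0.le, ← dist_eq_norm]
          rw [lt_div_iff₀ hl0] at hn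
          linarith
        · rw [mem_pp, smul_smul, inv_mul_cancel₀ hl0.ne', one_smul, add_sub_cancel, neg_div]
          exact hx)
      (t - T) ⟨by linarith [ht.1], le_rfl⟩ y hyF
    have e1 : (3 / lam) ^ 2 = 9 * (1 / lam ^ 2) := by field_simp; norm_num
    have e2 : dist y x₀ ^ 2 < (1 / lam) ^ 2 := pow_lt_pow_left₀ hd dist_nonneg (by norm_num)
    have e3 : (1 / lam) ^ 2 = 1 / lam ^ 2 := by field_simp
    linarith [ht.2]
  · intro f hf hfc a b hab hb ε hε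
    obtain ⟨L, hL⟩ := hw f hf hfc a b hab hb (cH * ε) (mul_pos cH_pos hε)
    refine ⟨max L (1 + 2 * (-a) / T), fun lam hlam s hs => ?_⟩
    have ha : 0 < 2 * (-a) / T := div_pos (by linarith) hT
    have h2 : 1 + 2 * (-a) / T ≤ lam := (le_max_right _ _).trans hlam
    have hl0 : 0 < lam := by linarith
    have hs0 : s < 0 := hs.2.trans_lt hb
    have hs' : s / lam ^ 2 ∈ Ioo (-(T / 2)) 0 := by
      refine ⟨?_, div_neg_of_neg_of_pos hs0 (by positivity)⟩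
      rw [lt_div_iff₀ (by positivity)]
      have a1 : 2 * (-a) / T < lam ^ 2 := by nlinarith
      rw [div_lt_iff₀ hT] at a1
      linarith [hs.1]
    have k := hL lam ((le_max_left _ _).trans hlam) s hs
    rw [Mv.mu, Mv.mu, pp_sl hR x₀ hl0 hs', unresc_sl hS.st hs0, int_muHE, int_muHE, ← mul_sub,
      abs_mul, abs_of_pos cH_pos] at k
    exact lt_of_mul_lt_mul_left k cH_pos.le



end Crest.Agent.N250.Br

end
end

-- ▼ part N250/Br/OutF
section

/-! Row 250 (helper37): `OutStmt`, closed. -/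

namespace Crest.Agent.N250.Br

theorem outStmt : OutStmt := out_of MP.avoidS_holds

end Crest.Agent.N250.Br
end

-- ▼ part N250/Gr/Loc
section

/-!
# Row 250, graphs (helper2), part 1: local facts about a moving surface
-/

set_option autoImplicit false
open Set Filter Topology Metric
open scoped ContDiff InnerProductSpace
open Crest.GeometryTopology.MCF

noncomputable section

namespace Crest.Agent.N250.Gr

variable {F : Mv} {p q : ST}

/-- the track is locally closed -/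
theorem ev_closure (hF : F.Reg) (hp : p ∈ F.M) : ∀ᶠ q in 𝓝 p, q ∈ closure F.M → q ∈ F.M := by
  obtain ⟨W, φ, hW, h⟩ := hF p hp
  filter_upwards [h.isOpen.mem_nhds hW] with q hq hc
  rw [h.mem q hq]
  have h1 : ∃ᶠ x in 𝓝 q, φ x ∈ ({0} : Set ℝ) :=
    ((mem_closure_iff_frequently.1 hc).and_eventually (h.isOpen.mem_nhds hq)).mono
      fun x hx => (h.mem x hx.2).1 hx.1
  simpa using mem_closure_of_frequently_of_tendsto h1 (h.contDiffAt hq).continuousAt

/-- a defining function with the right orientation is compatible with `n` and `V` -/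
theorem loc_of (hF : F.Reg) {W : Set ST} {φ : ST → ℝ} (hW : IsOpen W) (hs : ContDiffOn ℝ ∞ φ W)
    (hm : ∀ q ∈ W, q ∈ F.M ↔ φ q = 0) (e : E) (hg : ∀ q ∈ W, 0 < ⟪gradX φ q.1 q.2, e⟫_ℝ)
    (hn : ∀ q ∈ W, q ∈ F.M → 0 < ⟪F.n q, e⟫_ℝ) : F.Loc W φ := by
  have key : ∀ q ∈ W, q ∈ F.M → gradX φ q.1 q.2 = ‖gradX φ q.1 q.2‖ • F.n q ∧
      F.V q * ‖gradX φ q.1 q.2‖ + dT φ q = 0 := by
    intro q hq hM
    have hd : DifferentiableAt ℝ φ q :=
      (hs.contDiffAt (hW.mem_nhds hq)).differentiableAt (by simp)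
    have h0 : ∀ w, F.Tg q w → fderiv ℝ φ q w = 0 := fun w hw => by
      have h1 : HasFDerivWithinAt φ (0 : ST →L[ℝ] ℝ) F.M q := by
        refine (hasFDerivWithinAt_const (0 : ℝ) q F.M).congr_of_eventuallyEq ?_ ((hm q hq).1 hM)
        filter_upwards [nhdsWithin_le_nhds (hW.mem_nhds hq), self_mem_nhdsWithin] with x hx hxM
          using (hm x hx).1 hxM
      exact hF.unique_tg hM hd.hasFDerivAt.hasFDerivWithinAt h1 hw
    set g := gradX φ q.1 q.2 with hgd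
    have h1 : g = ⟪g, F.n q⟫_ℝ • F.n q := by
      refine ext_inner_right ℝ fun v => ?_
      have := h0 _ (hF.tg_PL hM v)
      rw [← inner_gradX hd, ← hgd, Mv.PL, inner_sub_right, inner_smul_right] at this
      rw [real_inner_smul_left]; linarith
    have h2 : 0 < ⟪g, F.n q⟫_ℝ := by
      have h3 := hg q hq
      rw [← hgd, h1, real_inner_smul_left] at h3
      exact (pos_iff_pos_of_mul_pos h3).2 (hn q hq hM)
    have h3 : ‖g‖ = ⟪g, F.n q⟫_ℝ := by
      conv_lhs => rw [h1, norm_smul, hF.norm_n hM, mul_one, Real.norm_of_nonneg h2.le]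
    refine ⟨h3 ▸ h1, ?_⟩
    have := h0 _ (hF.tg_vel hM)
    rw [fderiv_split hd, ← hgd, inner_smul_right] at this
    rw [h3]; linarith
  have hne : ∀ q ∈ W, gradX φ q.1 q.2 ≠ 0 := fun q hq h0 => by
    have := hg q hq
    rw [h0, inner_zero_left] at this
    exact lt_irrefl _ this
  refine ⟨hW, hs, hne, hm, fun q hq hM => ?_, fun q hq hM => ?_⟩
  · have h1 := norm_ne_zero_iff.2 (hne q hq)
    conv_rhs => rw [(key q hq hM).1, norm_smul, norm_norm, hF.norm_n hM, mul_one, smul_smul,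
      inv_mul_cancel₀ h1, one_smul]
  · have h1 := norm_ne_zero_iff.2 (hne q hq)
    rw [eq_div_iff h1]; linarith [(key q hq hM).2]

/-- implicit function along a transversal direction -/
theorem impl (hF : F.Reg) {A : ST → ST} (hA : ContDiff ℝ ∞ A) {e : E} {s : ℝ}
    (hp : A q + s • ((e, 0) : ST) ∈ F.M) (he : ⟪F.n (A q + s • ((e, 0) : ST)), e⟫_ℝ ≠ 0) :
    ∃ ψ : ST → ℝ, ContDiffAt ℝ ∞ ψ q ∧ ψ q = s ∧
      ∀ᶠ z in 𝓝 ((q, s) : ST × ℝ), A z.1 + z.2 • ((e, 0) : ST) ∈ F.M ↔ ψ z.1 = z.2 := by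
  obtain ⟨W, φ, hW, h⟩ := hF _ hp
  have hL : ContDiff ℝ ∞ fun z : ST × ℝ => A z.1 + z.2 • ((e, 0) : ST) :=
    (hA.comp contDiff_fst).add (contDiff_snd.smul contDiff_const)
  have hf : ContDiffAt ℝ ∞ (fun z : ST × ℝ => φ (A z.1 + z.2 • ((e, 0) : ST))) (q, s) :=
    ContDiffAt.comp (q, s) (g := φ) (h.contDiffAt hW) hL.contDiffAt
  have hn : (∞ : WithTop ℕ∞) ≠ 0 := by simp
  set c := fderiv ℝ φ (A q + s • ((e, 0) : ST)) (e, 0) with hc
  have hc0 : c ≠ 0 := by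
    rw [hc, h.fderiv_eq hW hp]
    exact mul_ne_zero (h.norm_pos hW).ne' (by simpa using he)
  have h1 : HasDerivAt (fun t : ℝ => φ (A q + t • ((e, 0) : ST))) c s :=
    HasFDerivAt.comp_hasDerivAt s (l := φ) (h.diffAt hW).hasFDerivAt
      (by simpa using ((hasDerivAt_id s).smul_const ((e, 0) : ST)).const_add (A q))
  have h2 := HasFDerivAt.comp s (f := fun t : ℝ => ((q, t) : ST × ℝ))
    (hf.differentiableAt hn).hasFDerivAt (hasFDerivAt_prodMk_right q s)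
  have h3 := h2.unique h1.hasFDerivAt
  have hi : (fderiv ℝ (fun z : ST × ℝ => φ (A z.1 + z.2 • ((e, 0) : ST))) (q, s) ∘L
      ContinuousLinearMap.inr ℝ ST ℝ).IsInvertible :=
    ⟨ContinuousLinearEquiv.unitsEquivAut ℝ (Units.mk0 c hc0), by rw [h3]; ext; simp⟩
  refine ⟨hf.implicitFunction hn hi, hf.contDiffAt_implicitFunction hn hi,
    hf.implicitFunction_apply_self hn hi, ?_⟩
  filter_upwards [hf.eventually_apply_eq_iff_implicitFunction hn hi,
    hL.continuous.continuousAt.eventually (h.isOpen.mem_nhds hW)] with z h4 h5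
  rw [h.mem _ h5, ← h4, (h.mem _ hW).1 hp]

/-- a curve on the track with a given tangent vector -/
theorem exists_curve (hF : F.Reg) (hp : p ∈ F.M) {w : ST} (hw : F.Tg p w) :
    ∃ γ : ℝ → E, γ 0 = p.1 ∧ HasDerivAt γ w.1 0 ∧ ∀ᶠ s in 𝓝 (0 : ℝ), (γ s, p.2 + s * w.2) ∈ F.M := by
  obtain ⟨U, π, hr⟩ := hF.exists_retr hp
  have d := ((hr.sm.contDiffAt (hr.isOpen.mem_nhds hr.mem)).differentiableAt (by simp)).hasFDerivAt
  have h1 : HasDerivAt (fun s : ℝ => p + s • w) w 0 := by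
    simpa using ((hasDerivAt_id (0 : ℝ)).smul_const w).const_add p
  have h2 : HasDerivAt (fun s : ℝ => π (p + s • w)) w 0 := by
    have := HasFDerivAt.comp_hasDerivAt_of_eq (0 : ℝ) d h1 (by simp)
    rwa [hr.der w hw] at this
  refine ⟨fun s => (π (p + s • w)).1, by simp [hr.fix p hr.mem hp], h2.fst, ?_⟩
  have h3 : ∀ᶠ s in 𝓝 (0 : ℝ), p + s • w ∈ U :=
    h1.continuousAt.eventually (by simpa using hr.isOpen.mem_nhds hr.mem)
  filter_upwards [h3] with s hs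
  have h4 : p.2 + s * w.2 = (π (p + s • w)).2 := by rw [hr.time _ hs]; rfl
  rw [h4]; exact hr.maps hs

theorem near_time (hF : F.Reg) (hp : p ∈ F.M) {Λ : ℝ} (hΛ : |F.V p| < Λ) :
    ∀ᶠ s in 𝓝 (0 : ℝ), ∃ y, (y, p.2 + s) ∈ F.M ∧ ‖y - p.1‖ ≤ Λ * |s| := by
  obtain ⟨γ, h0, h1, h2⟩ := exists_curve hF hp (hF.tg_vel hp)
  filter_upwards [h2, h1.isLittleO.def (sub_pos.2 hΛ)] with s h3 h4
  refine ⟨γ s, by simpa using h3, ?_⟩
  have h5 : ‖(s - 0) • F.V p • F.n p‖ = |s| * |F.V p| := by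
    rw [norm_smul, norm_smul, hF.norm_n hp]; simp
  have h6 := norm_add_le (γ s - γ 0 - (s - 0) • F.V p • F.n p) ((s - 0) • F.V p • F.n p)
  rw [sub_add_cancel, h5, h0] at h6
  rw [h0, Real.norm_eq_abs, sub_zero] at h4
  rw [sub_zero] at h6
  linarith

/-- a nearest point is a foot of a normal line -/
theorem perp_of_min (hF : F.Reg) (hp : p ∈ F.M) {c : E}
    (hm : ∀ᶠ y in 𝓝 p.1, (y, p.2) ∈ F.M → ‖c - p.1‖ ≤ ‖c - y‖) :
    c - p.1 = ⟪c - p.1, F.n p⟫_ℝ • F.n p := by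
  refine ext_inner_right ℝ fun v => ?_
  obtain ⟨γ, h0, h1, h2⟩ := exists_curve hF hp (hF.tg_PL hp v)
  have h3 : IsLocalMin (fun s => ‖c - γ s‖ ^ 2) 0 := by
    filter_upwards [h2, h1.continuousAt.eventually (by rw [h0]; exact hm)] with s h4 h5
    have := h5 (by simpa using h4)
    simp only [h0]
    gcongr
  have h4 := h3.hasDerivAt_eq_zero (h1.const_sub c).norm_sq
  rw [h0, inner_neg_right, Mv.PL, inner_sub_right, inner_smul_right] at h4
  rw [real_inner_smul_left]; linarith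

/-- points can be followed forwards and backwards in time -/
theorem speed (hF : F.Reg) {Ω : Set ST} (hP : F.Proper Ω) {Λ : ℝ}
    (hV : ∀ p ∈ F.M ∩ Ω, |F.V p| < Λ) {y : E} {t₁ t₂ : ℝ} (hy : (y, t₁) ∈ F.M)
    (hΩ : ∀ x t, t ∈ uIcc t₁ t₂ → ‖x - y‖ ≤ Λ * |t - t₁| → (x, t) ∈ Ω) :
    ∃ x, (x, t₂) ∈ F.M ∧ ‖x - y‖ ≤ Λ * |t₂ - t₁| := by
  set S : Set ST := {p | p ∈ closure F.M ∧ p.2 ∈ uIcc t₁ t₂ ∧ ‖p.1 - y‖ ≤ Λ * |p.2 - t₁|}
  have hΛ : 0 ≤ Λ := ((abs_nonneg _).trans_lt (hV _ ⟨hy, hΩ y t₁ left_mem_uIcc (by simp)⟩)).le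
  have hc : IsCompact S := by
    refine ((isCompact_closedBall y (Λ * |t₂ - t₁|)).prod isCompact_uIcc).of_isClosed_subset
      (isClosed_closure.inter ((isCompact_uIcc.isClosed.preimage continuous_snd).inter
        (isClosed_le (f := fun p : ST => ‖p.1 - y‖) (g := fun p : ST => Λ * |p.2 - t₁|)
          (by fun_prop) (by fun_prop)))) fun p hp => ⟨?_, hp.2.1⟩
    rw [mem_closedBall, dist_eq_norm]
    exact hp.2.2.trans (mul_le_mul_of_nonneg_left (abs_sub_left_of_mem_uIcc hp.2.1) hΛ)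
  obtain ⟨p, hp, hm⟩ := hc.exists_isMinOn ⟨(y, t₁), subset_closure hy, left_mem_uIcc, by simp⟩
    (f := fun p => |t₂ - p.2|) (by fun_prop)
  have hpΩ : p ∈ Ω := hΩ p.1 p.2 hp.2.1 hp.2.2
  have hpM := hP p hp.1 hpΩ
  by_cases h : p.2 = t₂
  · exact ⟨p.1, h ▸ hpM, h ▸ hp.2.2⟩
  exfalso
  have h1 : Tendsto (fun θ : ℝ => θ * (t₂ - p.2)) (𝓝[>] 0) (𝓝 0) :=
    tendsto_nhdsWithin_of_tendsto_nhds (Continuous.tendsto' (by fun_prop) _ _ (by simp))
  obtain ⟨θ, ⟨x, hx, hx'⟩, h2, h3⟩ := ((h1.eventually (near_time hF hpM (hV p ⟨hpM, hpΩ⟩))).and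
    (Ioo_mem_nhdsGT zero_lt_one)).exists
  have h4 : 0 < |t₂ - p.2| := abs_pos.2 (sub_ne_zero.2 (Ne.symm h))
  have h5 : p.2 + θ * (t₂ - p.2) ∈ uIcc t₁ t₂ ∧
      |p.2 + θ * (t₂ - p.2) - t₁| = |p.2 - t₁| + |θ * (t₂ - p.2)| := by
    have h6 := hp.2.1
    rcases le_total t₁ t₂ with h7 | h7
    · rw [uIcc_of_le h7] at h6 ⊢
      have : 0 ≤ θ * (t₂ - p.2) := mul_nonneg h2.le (sub_nonneg.2 h6.2)
      refine ⟨⟨by linarith [h6.1], by nlinarith [h6.2]⟩, ?_⟩
      rw [abs_of_nonneg this, abs_of_nonneg (sub_nonneg.2 h6.1),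
        abs_of_nonneg (by linarith [h6.1])]
      ring
    · rw [uIcc_of_ge h7] at h6 ⊢
      have : θ * (t₂ - p.2) ≤ 0 := mul_nonpos_of_nonneg_of_nonpos h2.le (sub_nonpos.2 h6.1)
      refine ⟨⟨by nlinarith [h6.1], by linarith [h6.2]⟩, ?_⟩
      rw [abs_of_nonpos this, abs_of_nonpos (sub_nonpos.2 h6.2),
        abs_of_nonpos (by linarith [h6.2])]
      ring
  have h6 : |t₂ - p.2| ≤ |t₂ - (p.2 + θ * (t₂ - p.2))| := hm (a := (x, p.2 + θ * (t₂ - p.2)))
    ⟨subset_closure hx, h5.1, by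
      have := norm_add_le (x - p.1) (p.1 - y)
      rw [sub_add_sub_cancel] at this
      change ‖x - y‖ ≤ Λ * |p.2 + θ * (t₂ - p.2) - t₁|
      rw [h5.2]; linarith [hp.2.2]⟩
  rw [show t₂ - (p.2 + θ * (t₂ - p.2)) = (1 - θ) * (t₂ - p.2) by ring, abs_mul,
    abs_of_pos (sub_pos.2 h3)] at h6
  nlinarith

end Crest.Agent.N250.Gr

end
end

-- ▼ part N250/Gr/Cross
section

/-!
# Row 250, graphs (helper2), part 2: every line parallel to `n X` near `X` meets the track once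
-/

set_option autoImplicit false
open Set Filter Topology Metric
open scoped ContDiff InnerProductSpace
open Crest.GeometryTopology.MCF

noncomputable section

namespace Crest.Agent.N250.Gr

variable {F : Mv} {X p q : ST} {δ : ℝ}

theorem reach_in {ρ : ℝ} (hρ : 0 < ρ) (hn : ‖F.n p‖ = 1) (h : F.Reach p ρ) {y : E}
    (hy : (y, p.2) ∈ F.M) : |⟪y - p.1, F.n p⟫_ℝ| * (2 * ρ) ≤ ‖y - p.1‖ ^ 2 := by
  obtain ⟨h1, h2⟩ := h y hy
  rw [dist_eq_norm] at h1 h2
  have h3 := pow_le_pow_left₀ hρ.le h1 2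
  have h4 := pow_le_pow_left₀ hρ.le h2 2
  rw [← sub_sub, norm_sub_sq_real, inner_smul_right, norm_smul, hn, Real.norm_of_nonneg hρ.le] at h3
  rw [show y - (p.1 - ρ • F.n p) = y - p.1 + ρ • F.n p by abel, norm_add_sq_real, inner_smul_right,
    norm_smul, hn, Real.norm_of_nonneg hρ.le] at h4
  rcases abs_cases ⟪y - p.1, F.n p⟫_ℝ with h5 | h5 <;> rw [h5.1] <;> nlinarith

theorem foot_unique {ρ s s' : ℝ} (hρ : 0 < ρ) (hF : F.Reg) (hp : p ∈ F.M) (hq : q ∈ F.M)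
    (ht : p.2 = q.2) (h : F.Reach p ρ) (h' : F.Reach q ρ) (hs : |s| < ρ) (hs' : |s'| < ρ)
    (e : p.1 + s • F.n p = q.1 + s' • F.n q) : p = q := by
  have h1 := reach_in hρ (hF.norm_n hp) h (y := q.1) (by rw [ht]; exact hq)
  have h2 := reach_in hρ (hF.norm_n hq) h' (y := p.1) (by rw [← ht]; exact hp)
  have h3 : q.1 - p.1 = s • F.n p - s' • F.n q := by
    rw [sub_eq_sub_iff_add_eq_add, ← e, add_comm]
  have h4 : ‖q.1 - p.1‖ ^ 2 = s * ⟪q.1 - p.1, F.n p⟫_ℝ + s' * ⟪p.1 - q.1, F.n q⟫_ℝ := by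
    rw [← real_inner_self_eq_norm_sq, ← neg_sub q.1 p.1, inner_neg_left]
    nth_rewrite 2 [h3]
    rw [inner_sub_right, inner_smul_right, inner_smul_right]; ring
  rw [norm_sub_rev p.1] at h2
  have h5 := le_abs_self (s * ⟪q.1 - p.1, F.n p⟫_ℝ)
  have h6 := le_abs_self (s' * ⟪p.1 - q.1, F.n q⟫_ℝ)
  rw [abs_mul] at h5 h6
  by_contra hne
  have h7 : 0 < ‖q.1 - p.1‖ ^ 2 := by
    have : q.1 - p.1 ≠ 0 := fun h0 => hne (Prod.ext (sub_eq_zero.1 h0).symm ht)
    positivity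
  have h8 := mul_le_mul_of_nonneg_left h1 (abs_nonneg s)
  have h9 := mul_le_mul_of_nonneg_left h2 (abs_nonneg s')
  nlinarith [mul_pos (sub_pos.2 hs) h7, mul_pos (sub_pos.2 hs') h7]

/-- the hypotheses at scale `ρ = 100 δ` -/
structure Hy (F : Mv) (X : ST) (δ : ℝ) : Prop where
  reg : F.Reg
  pos : 0 < δ
  mem : X ∈ F.M
  prop : F.Proper (PC X (100 * δ))
  reach : ∀ p ∈ F.M ∩ PC X (100 * δ), F.Reach p (100 * δ)
  spd : ∀ p ∈ F.M ∩ PC X (100 * δ), |F.V p| < 1 / (25 * δ)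

/-- time interval -/
def TT (X : ST) (δ : ℝ) : Set ℝ := Icc (X.2 - δ ^ 2 / 4) X.2

/-- compact piece of the track -/
def K1 (F : Mv) (X : ST) (δ : ℝ) : Set ST := closure F.M ∩ closedBall X.1 (90 * δ) ×ˢ TT X δ

/-- one side of the track -/
def Sd (F : Mv) (X : ST) (δ σ : ℝ) : Set ST :=
  (fun z : ST × ℝ => (z.1.1 + (σ * z.2) • F.n z.1, z.1.2)) '' (K1 F X δ ×ˢ Icc 0 (45 * δ))

namespace Hy

variable (h : Hy F X δ) {y w : E} {t s σ : ℝ}
include h

theorem pc {r : ℝ} (hr : δ ≤ r) (hy : ‖y - X.1‖ < r) (ht : t ∈ TT X δ) : (y, t) ∈ PC X r := by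
  have := h.pos
  exact ⟨mem_ball_iff_norm.2 hy, by nlinarith [ht.1], ht.2⟩

theorem pc' (hy : ‖y - X.1‖ < 100 * δ) (ht : t ∈ TT X δ) : (y, t) ∈ PC X (100 * δ) :=
  h.pc (by linarith [h.pos]) hy ht

theorem top : X.2 ∈ TT X δ := ⟨sub_le_self _ (by have := h.pos; positivity), le_rfl⟩

theorem dt {t' : ℝ} (ht : t ∈ TT X δ) (ht' : t' ∈ TT X δ) : 1 / (25 * δ) * |t' - t| ≤ δ / 100 := by
  have := h.pos
  have h1 : |t' - t| ≤ δ ^ 2 / 4 := abs_le.2 ⟨by linarith [ht.2, ht'.1], by linarith [ht.1, ht'.2]⟩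
  calc _ ≤ 1 / (25 * δ) * (δ ^ 2 / 4) := by gcongr
    _ = _ := by field_simp; norm_num

theorem move {t' : ℝ} (hy : (y, t) ∈ F.M) (hd : ‖y - X.1‖ ≤ 90 * δ) (ht : t ∈ TT X δ)
    (ht' : t' ∈ TT X δ) : ∃ x, (x, t') ∈ F.M ∧ ‖x - y‖ ≤ δ / 100 := by
  obtain ⟨x, h1, h2⟩ := speed h.reg h.prop h.spd hy (t₂ := t') fun x r hr hx => by
    have h3 : r ∈ TT X δ := uIcc_subset_Icc ht ht' hr
    have := norm_add_le (x - y) (y - X.1)
    rw [sub_add_sub_cancel] at this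
    exact h.pc' (by linarith [h.dt ht h3, h.pos]) h3
  exact ⟨x, h1, h2.trans (h.dt ht ht')⟩

theorem unit : ‖F.n X‖ = 1 := h.reg.norm_n h.mem

theorem free (hs : |s| = 20 * δ) (hy : (y, t) ∈ F.M) (ht : t ∈ TT X δ) :
    20 * δ - δ / 100 ≤ ‖y - (X.1 + s • F.n X)‖ := by
  have hδ := h.pos
  by_contra! hlt
  have h0 : ‖s • F.n X‖ = 20 * δ := by rw [norm_smul, h.unit, mul_one, Real.norm_eq_abs, hs]
  have h1 := norm_add_le (y - (X.1 + s • F.n X)) (s • F.n X)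
  rw [show y - (X.1 + s • F.n X) + s • F.n X = y - X.1 by abel] at h1
  obtain ⟨x, h2, h3⟩ := h.move hy (by linarith) ht h.top
  have h4 := reach_in (by positivity) h.unit
    (h.reach X ⟨h.mem, h.pc' (y := X.1) (by simpa using hδ) h.top⟩) h2
  have h5 := norm_add_le (x - y) (y - (X.1 + s • F.n X))
  rw [sub_add_sub_cancel, ← sub_sub] at h5
  have h6 : ‖x - X.1 - s • F.n X‖ ^ 2 < (20 * δ) ^ 2 := by
    gcongr; linarith
  rw [norm_sub_sq_real, h0, inner_smul_right] at h6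
  have h7 := le_abs_self (s * ⟪x - X.1, F.n X⟫_ℝ)
  rw [abs_mul, hs] at h7
  nlinarith [sq_nonneg ‖x - X.1‖]

theorem K1_sub (hp : p ∈ K1 F X δ) : p ∈ F.M ∩ PC X (100 * δ) := by
  have h1 : p ∈ PC X (100 * δ) :=
    h.pc' ((mem_closedBall_iff_norm.1 hp.2.1).trans_lt (by linarith [h.pos])) hp.2.2
  exact ⟨h.prop p hp.1 h1, h1⟩

theorem closed_Sd (σ : ℝ) : IsClosed (Sd F X δ σ) := by
  have h1 : IsCompact (K1 F X δ) :=
    ((isCompact_closedBall _ _).prod isCompact_Icc).inter_left isClosed_closure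
  have h2 : ContinuousOn (fun z : ST × ℝ => F.n z.1) (K1 F X δ ×ˢ Icc 0 (45 * δ)) :=
    h.reg.sm_n.continuousOn.comp continuousOn_fst fun z hz => (h.K1_sub hz.1).1
  exact ((h1.prod isCompact_Icc).image_of_continuousOn (by fun_prop)).isClosed

theorem cover (hσ : σ * σ = 1) (hy : ‖y - X.1‖ ≤ 40 * δ) (ht : t ∈ TT X δ) :
    (y, t) ∈ Sd F X δ σ ∪ Sd F X δ (-σ) := by
  have hδ := h.pos
  obtain ⟨x, h1, h2⟩ := h.move (y := X.1) h.mem (by simpa using hδ.le) h.top ht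
  have h3 : IsCompact (closedBall X.1 (90 * δ) ∩ {z | (z, t) ∈ closure F.M}) :=
    (isCompact_closedBall _ _).inter_right (isClosed_closure.preimage (by fun_prop))
  obtain ⟨z, hz, hm⟩ := h3.exists_isMinOn
    ⟨x, mem_closedBall_iff_norm.2 (by linarith), subset_closure h1⟩ (f := fun z => ‖y - z‖)
    (by fun_prop)
  rw [isMinOn_iff] at hm
  have hK : (z, t) ∈ K1 F X δ := ⟨hz.2, hz.1, ht⟩
  have h4 : ‖y - z‖ ≤ ‖y - x‖ := hm x ⟨mem_closedBall_iff_norm.2 (by linarith), subset_closure h1⟩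
  have h5 := norm_sub_le (y - X.1) (x - X.1)
  rw [sub_sub_sub_cancel_right] at h5
  have h6 := norm_sub_le (y - X.1) (y - z)
  rw [sub_sub_sub_cancel_left] at h6
  have hM := (h.K1_sub hK).1
  have h70 : closedBall X.1 (90 * δ) ∈ 𝓝 z :=
    closedBall_mem_nhds_of_mem (mem_ball_iff_norm.2 (by linarith))
  have h7 : y - z = ⟪y - z, F.n (z, t)⟫_ℝ • F.n (z, t) := perp_of_min h.reg hM (c := y)
    (eventually_of_mem h70 fun u hu huM => hm u ⟨hu, subset_closure huM⟩)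
  set a := ⟪y - z, F.n (z, t)⟫_ℝ
  have h8 : |a| ≤ 45 * δ := by
    have := abs_real_inner_le_norm (y - z) (F.n (z, t))
    rw [h.reg.norm_n hM] at this
    linarith
  have h9 : |σ * a| ≤ 45 * δ := by
    rw [abs_mul, show |σ| = 1 by rcases mul_self_eq_one_iff.1 hσ with r | r <;> simp [r], one_mul]
    exact h8
  have h10 : y = z + a • F.n (z, t) := by rw [← h7]; simp
  rcases le_total 0 (σ * a) with h0 | h0
  · refine Or.inl ⟨((z, t), σ * a), ⟨hK, h0, (abs_le.1 h9).2⟩, ?_⟩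
    simp only [← mul_assoc, hσ, one_mul, ← h10]
  · refine Or.inr ⟨((z, t), -(σ * a)), ⟨hK, by simpa using h0, by linarith [(abs_le.1 h9).1]⟩, ?_⟩
    simp only [neg_mul_neg, ← mul_assoc, hσ, one_mul, ← h10]

theorem inter (hσ : σ * σ = 1) (h1 : q ∈ Sd F X δ σ) (h2 : q ∈ Sd F X δ (-σ)) : q ∈ F.M := by
  have hδ := h.pos
  obtain ⟨⟨p, s⟩, ⟨a1, a2, a3⟩, rfl⟩ := h1
  obtain ⟨⟨p', s'⟩, ⟨b1, b2, b3⟩, e⟩ := h2
  simp only [Prod.mk.injEq] at e a1 a2 a3 b1 b2 b3 ⊢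
  have hσ' : |σ| = 1 := by rcases mul_self_eq_one_iff.1 hσ with r | r <;> simp [r]
  have c1 := h.K1_sub a1
  have c2 := h.K1_sub b1
  have h3 := foot_unique (by positivity) h.reg c2.1 c1.1 e.2 (h.reach _ c2) (h.reach _ c1)
    (by rw [abs_mul, abs_neg, hσ', abs_of_nonneg b2]; linarith)
    (by rw [abs_mul, hσ', abs_of_nonneg a2]; linarith) e.1
  subst h3
  have h4 := congrArg (fun v => ⟪F.n p', v⟫_ℝ) (add_left_cancel e.1)
  simp only [inner_smul_right, h.reg.inner_n c1.1] at h4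
  have h5 : s = 0 := by
    have : σ * (σ * (s + s')) = 0 := by linear_combination (-σ) * h4
    rw [← mul_assoc, hσ] at this
    linarith
  simpa [h5] using c1.1

theorem sep (hσ : σ * σ = 1) {S : Set ST} (hS : IsPreconnected S)
    (hK : ∀ q ∈ S, ‖q.1 - X.1‖ ≤ 40 * δ ∧ q.2 ∈ TT X δ) (h1 : (S ∩ Sd F X δ σ).Nonempty)
    (h2 : (S ∩ Sd F X δ (-σ)).Nonempty) : (S ∩ F.M).Nonempty := by
  obtain ⟨q, a, b, c⟩ := isPreconnected_closed_iff.1 hS _ _ (h.closed_Sd σ) (h.closed_Sd (-σ))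
    (fun q hq => h.cover hσ (hK q hq).1 (hK q hq).2) h1 h2
  exact ⟨q, a, h.inter hσ b c⟩

theorem side (hσ : σ * σ = 1) (hy : ‖y - (X.1 + (σ * (20 * δ)) • F.n X)‖ < 20 * δ - δ / 100)
    (ht : t ∈ TT X δ) : (y, t) ∉ Sd F X δ (-σ) := by
  have hδ := h.pos
  have hσ' : |σ * (20 * δ)| = 20 * δ := by
    rcases mul_self_eq_one_iff.1 hσ with r | r <;> simp [r, abs_of_pos hδ]
  intro hm
  have h1 : ∀ q ∈ ball (X.1 + (σ * (20 * δ)) • F.n X) (20 * δ - δ / 100) ×ˢ TT X δ,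
      ‖q.1 - X.1‖ ≤ 40 * δ ∧ q.2 ∈ TT X δ := fun q hq => by
    have h1 := norm_add_le (q.1 - (X.1 + (σ * (20 * δ)) • F.n X)) ((σ * (20 * δ)) • F.n X)
    rw [norm_smul, h.unit, Real.norm_eq_abs, hσ', ← sub_sub, sub_add_cancel] at h1
    have := mem_ball_iff_norm.1 hq.1
    rw [← sub_sub] at this
    exact ⟨by linarith, hq.2⟩
  have h2 : X ∈ K1 F X δ := ⟨subset_closure h.mem, mem_closedBall_self (by positivity), h.top⟩
  have h3 : (X.1 + (σ * (20 * δ)) • F.n X, X.2) ∈ Sd F X δ σ :=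
    ⟨(X, 20 * δ), ⟨h2, show 0 ≤ 20 * δ by positivity, show 20 * δ ≤ 45 * δ by linarith⟩, rfl⟩
  obtain ⟨q, ⟨a, b⟩, c⟩ := h.sep hσ (isPreconnected_ball.prod isPreconnected_Icc) h1
    ⟨(X.1 + (σ * (20 * δ)) • F.n X, X.2), ⟨mem_ball_self (by linarith), h.top⟩, h3⟩
    ⟨(y, t), ⟨mem_ball_iff_norm.2 hy, ht⟩, hm⟩
  exact (h.free hσ' (y := q.1) c b).not_gt (mem_ball_iff_norm.1 a)

theorem pyth (hw : ⟪w, F.n X⟫_ℝ = 0) (s : ℝ) : ‖w + s • F.n X‖ ^ 2 = ‖w‖ ^ 2 + s ^ 2 := by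
  rw [norm_add_sq_real, inner_smul_right, hw, norm_smul, h.unit]; simp

theorem inball (hσ : σ * σ = 1) (hw : ⟪w, F.n X⟫_ℝ = 0) (hw' : ‖w‖ ≤ 2 * δ)
    (h1 : 12 * δ / 100 ≤ σ * s) (h2 : σ * s ≤ δ) :
    ‖X.1 + w + s • F.n X - (X.1 + (σ * (20 * δ)) • F.n X)‖ < 20 * δ - δ / 100 := by
  have hδ := h.pos
  rw [show X.1 + w + s • F.n X - (X.1 + (σ * (20 * δ)) • F.n X) =
    w + (s - σ * (20 * δ)) • F.n X by module]
  refine lt_of_pow_lt_pow_left₀ 2 (by linarith) ?_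
  have h3 : ‖w‖ ^ 2 ≤ (2 * δ) ^ 2 := by gcongr
  have h4 : (s - σ * (20 * δ)) ^ 2 = (σ * s - 20 * δ) ^ 2 := by
    linear_combination ((20 * δ) ^ 2 - s ^ 2) * hσ
  rw [h.pyth hw, h4]
  nlinarith [mul_nonneg (sub_nonneg.2 h1) (sub_nonneg.2 h2), mul_pos hδ hδ,
    mul_nonneg (sub_nonneg.2 h1) hδ.le]

theorem near (hw' : ‖w‖ ≤ 2 * δ) (hs : |s| ≤ δ) : ‖X.1 + w + s • F.n X - X.1‖ ≤ 3 * δ := by
  have := norm_add_le w (s • F.n X)
  rw [norm_smul, h.unit, Real.norm_eq_abs] at this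
  rw [add_assoc, add_sub_cancel_left]; linarith

theorem slab (hw : ⟪w, F.n X⟫_ℝ = 0) (hw' : ‖w‖ ≤ 2 * δ) (ht : t ∈ TT X δ) (hs : |s| ≤ δ)
    (hM : (X.1 + w + s • F.n X, t) ∈ F.M) : |s| < 12 * δ / 100 := by
  have hδ := h.pos
  by_contra! hlt
  rcases abs_cases s with r | r
  · exact (h.free (by simp [abs_of_pos hδ]) hM ht).not_gt
      (h.inball (σ := 1) (by simp) hw hw' (by linarith) (by linarith))
  · exact (h.free (by simp [abs_of_pos hδ]) hM ht).not_gt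
      (h.inball (σ := -1) (by simp) hw hw' (by linarith) (by linarith))

theorem cross (hw : ⟪w, F.n X⟫_ℝ = 0) (hw' : ‖w‖ ≤ 2 * δ) (ht : t ∈ TT X δ) :
    ∃ s, |s| ≤ δ ∧ (X.1 + w + s • F.n X, t) ∈ F.M := by
  have hδ := h.pos
  have h1 : ∀ s, |s| ≤ δ → ‖X.1 + w + s • F.n X - X.1‖ ≤ 40 * δ := fun s hs =>
    (h.near hw' hs).trans (by linarith)
  obtain ⟨_, ⟨s, hs, rfl⟩, hM⟩ := h.sep (σ := 1) (by simp)
    (S := (fun s : ℝ => (X.1 + w + s • F.n X, t)) '' Icc (-δ) δ)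
    (isPreconnected_Icc.image _ (by fun_prop))
    (by rintro _ ⟨s, hs, rfl⟩; exact ⟨h1 s (abs_le.2 hs), ht⟩)
    ⟨(X.1 + w + δ • F.n X, t), ⟨δ, ⟨by linarith, le_rfl⟩, rfl⟩,
      (h.cover (σ := 1) (by simp) (h1 δ (abs_of_pos hδ).le) ht).resolve_right
        (h.side (by simp) (h.inball (by simp) hw hw' (by linarith) (by linarith)) ht)⟩
    ⟨(X.1 + w + (-δ) • F.n X, t), ⟨-δ, ⟨le_rfl, by linarith⟩, rfl⟩,
      (h.cover (σ := -1) (by simp) (h1 (-δ) (by simp [abs_of_pos hδ])) ht).resolve_right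
        (h.side (by simp) (h.inball (by simp) hw hw' (by linarith) (by linarith)) ht)⟩
  exact ⟨s, abs_le.2 hs, hM⟩

theorem tilt (hw : ⟪w, F.n X⟫_ℝ = 0) (hw' : ‖w‖ ≤ δ) (ht : t ∈ TT X δ) (hs : |s| ≤ δ)
    (hM : (X.1 + w + s • F.n X, t) ∈ F.M) : 24 / 25 ≤ ⟪F.n (X.1 + w + s • F.n X, t), F.n X⟫_ℝ := by
  have hδ := h.pos
  have h3 := h.near (hw'.trans (by linarith)) hs
  have hs1 := h.slab hw (by linarith) ht hs hM
  have hP := h.pc' (h3.trans_lt (by linarith)) ht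
  set p : ST := (X.1 + w + s • F.n X, t) with hp
  set a := ⟪F.n p, F.n X⟫_ℝ with ha
  set m := F.n p - a • F.n X with hm
  have hme : ⟪m, F.n X⟫_ℝ = 0 := by
    rw [hm, inner_sub_left, real_inner_smul_left, h.reg.inner_n h.mem]; ring
  have hn : F.n p = m + a • F.n X := by rw [hm]; abel
  have h1 : ‖m‖ ^ 2 + a ^ 2 = 1 := by rw [← h.pyth hme, ← hn, h.reg.norm_n hM]; norm_num
  have h2 : ‖m‖ ≤ 1 / 4 := by
    by_contra! hlt
    have hm0 : 0 < ‖m‖ := by linarith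
    have e1 : ‖(δ / ‖m‖) • m‖ = δ := by
      rw [norm_smul, Real.norm_of_nonneg (by positivity)]; field_simp
    have e2 : ⟪(δ / ‖m‖) • m, F.n X⟫_ℝ = 0 := by rw [real_inner_smul_left, hme, mul_zero]
    have e3 : ‖w + (δ / ‖m‖) • m‖ ≤ 2 * δ := (norm_add_le _ _).trans (by linarith)
    have e4 : ⟪w + (δ / ‖m‖) • m, F.n X⟫_ℝ = 0 := by rw [inner_add_left, hw, e2, add_zero]
    obtain ⟨s', a1, a2⟩ := h.cross e4 e3 ht
    have a3 := h.slab e4 e3 ht a1 a2
    have a4 := reach_in (by positivity) (h.reg.norm_n hM) (h.reach p ⟨hM, hP⟩) a2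
    rw [show X.1 + (w + (δ / ‖m‖) • m) + s' • F.n X - p.1 = (δ / ‖m‖) • m + (s' - s) • F.n X by
      rw [hp]; module, h.pyth e2, e1] at a4
    have a5 : ⟪(δ / ‖m‖) • m + (s' - s) • F.n X, F.n p⟫_ℝ = δ * ‖m‖ + (s' - s) * a := by
      rw [inner_add_left, real_inner_smul_left, real_inner_smul_left, real_inner_comm (F.n p) (F.n X),
        ← ha]
      nth_rewrite 1 [hn]
      rw [inner_add_right, inner_smul_right, hme, real_inner_self_eq_norm_sq]
      field_simp; ring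
    rw [a5] at a4
    have a6 : |s' - s| ≤ 24 * δ / 100 := (abs_sub _ _).trans (by linarith)
    have a7 : |a| ≤ 1 := abs_le_one_iff_mul_self_le_one.2 (by nlinarith)
    have a8 : |(s' - s) * a| ≤ 24 * δ / 100 * 1 := by rw [abs_mul]; gcongr
    have a9 : (s' - s) ^ 2 ≤ (24 * δ / 100) ^ 2 := sq_le_sq' (abs_le.1 a6).1 (abs_le.1 a6).2
    have a10 : δ / 100 ≤ |δ * ‖m‖ + (s' - s) * a| :=
      le_trans (by nlinarith [(abs_le.1 a8).1]) (le_abs_self _)
    nlinarith [mul_pos hδ hδ]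
  have h4 : ‖m‖ ^ 2 ≤ (1 / 4) ^ 2 := by gcongr
  by_contra! hlt
  have h5 : a ≤ -(24 / 25) := by nlinarith
  have h6 : -1 ≤ a := by nlinarith [sq_nonneg ‖m‖]
  have e1 : ‖w + (δ / 2) • m‖ ≤ 2 * δ := by
    have := norm_add_le w ((δ / 2) • m)
    rw [norm_smul, Real.norm_of_nonneg (by positivity)] at this
    nlinarith
  have e2 : ⟪w + (δ / 2) • m, F.n X⟫_ℝ = 0 := by
    rw [inner_add_left, hw, real_inner_smul_left, hme]; ring
  refine h.side (σ := -1) (by simp) (h.inball (s := s + δ / 2 * a) (by simp) e2 e1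
    (by nlinarith [(abs_lt.1 hs1).2]) (by nlinarith [(abs_lt.1 hs1).1])) ht
    ⟨(p, δ / 2), ⟨⟨subset_closure hM, mem_closedBall_iff_norm.2 (h3.trans (by linarith)), ht⟩,
      by positivity, by linarith⟩, Prod.ext ?_ rfl⟩
  change p.1 + (- -1 * (δ / 2)) • F.n p = _
  rw [hn, hp]; module

/-- exactly one crossing, transversal -/
theorem line (hw : ⟪w, F.n X⟫_ℝ = 0) (hw' : ‖w‖ ≤ δ) (ht : t ∈ TT X δ) :
    ∃ s, |s| < δ ∧ (X.1 + w + s • F.n X, t) ∈ F.M ∧
      24 / 25 ≤ ⟪F.n (X.1 + w + s • F.n X, t), F.n X⟫_ℝ ∧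
      ∀ s' ∈ Icc (-δ) δ, (X.1 + w + s' • F.n X, t) ∈ closure F.M → s' = s := by
  have hδ := h.pos
  have hw2 : ‖w‖ ≤ 2 * δ := by linarith
  obtain ⟨s, h1, h2⟩ := h.cross hw hw2 ht
  have h3 := h.tilt hw hw' ht h1 h2
  refine ⟨s, (h.slab hw hw2 ht h1 h2).trans (by linarith), h2, h3, fun s' hs' hc => ?_⟩
  have h4 := h.prop _ hc (h.pc' ((h.near hw2 (abs_le.2 hs')).trans_lt (by linarith)) ht)
  have h5 := reach_in (by positivity) (h.reg.norm_n h2)
    (h.reach _ ⟨h2, h.pc' ((h.near hw2 h1).trans_lt (by linarith)) ht⟩) h4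
  rw [show X.1 + w + s' • F.n X - (X.1 + w + s • F.n X, t).1 = (s' - s) • F.n X by
    simp only []; module, real_inner_smul_left, real_inner_comm, norm_smul, h.unit, mul_one,
    Real.norm_eq_abs, abs_mul, abs_of_nonneg (le_trans (by norm_num) h3)] at h5
  have h6 : |s' - s| ≤ 2 * δ := (abs_sub _ _).trans (by linarith [abs_le.2 hs'])
  by_contra hne
  have h7 := abs_pos.2 (sub_ne_zero.2 hne)
  nlinarith [mul_pos h7 hδ]

end Hy

end Crest.Agent.N250.Gr

end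
end

-- ▼ part N250/Gr/Graph
section

/-!
# Row 250, graphs (helper2), part 3: the height function of the sheet through `X`
-/

set_option autoImplicit false
open Set Filter Topology Metric
open scoped ContDiff InnerProductSpace
open Crest.GeometryTopology.MCF

noncomputable section

namespace Crest.Agent.N250.Gr

variable {F : Mv} {X p q : ST} {δ s : ℝ}

/-- derivatives of maps into the track are tangent -/
theorem tg_of_maps (hF : F.Reg) {γ : ST → ST} {γ' : ST →L[ℝ] ST} (h : HasFDerivAt γ γ' q)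
    (hM : ∀ᶠ x in 𝓝 q, γ x ∈ F.M) (w : ST) : F.Tg (γ q) (γ' w) := by
  obtain ⟨W, φ, hW, hL⟩ := hF _ hM.self_of_nhds
  rw [hL.tg_iff hW hM.self_of_nhds]
  have h1 := (hL.diffAt hW).hasFDerivAt.comp q h
  have h2 : HasFDerivAt (φ ∘ γ) (0 : ST →L[ℝ] ℝ) q := by
    refine (hasFDerivAt_const (0 : ℝ) q).congr_of_eventuallyEq ?_
    filter_upwards [hM, h.continuousAt.eventually (hL.isOpen.mem_nhds hW)] with x a b
      using (hL.mem _ b).1 a
  exact congrArg (fun L : ST →L[ℝ] ℝ => L w) (h1.unique h2)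

section Defs

variable (F X δ)

/-- height over the tangent plane at `X` -/
def ht (q : ST) : ℝ := ⟪q.1 - X.1, F.n X⟫_ℝ

/-- projection to the tangent plane at `X` -/
def pr (q : ST) : ST := q - ht F X q • ((F.n X, 0) : ST)

/-- `s` is the only crossing height over `b` -/
def Cr (b : ST) (s : ℝ) : Prop :=
  |s| < δ ∧ b + s • ((F.n X, 0) : ST) ∈ F.M ∧ 0 < ⟪F.n (b + s • ((F.n X, 0) : ST)), F.n X⟫_ℝ ∧
    ∀ s' ∈ Icc (-δ) δ, b + s' • ((F.n X, 0) : ST) ∈ closure F.M → s' = s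

/-- domain of the height function -/
def GG : Set ST := {q | ∃ s, Cr F X δ (pr F X q) s}

/-- the height function -/
def uu (q : ST) : ℝ := Classical.epsilon (Cr F X δ (pr F X q))

/-- the defining function -/
def ph (q : ST) : ℝ := ht F X q - uu F X δ q

/-- projection to the sheet -/
def lift (q : ST) : ST := q - ph F X δ q • ((F.n X, 0) : ST)

end Defs

theorem lift_eq : lift F X δ q = pr F X q + uu F X δ q • ((F.n X, 0) : ST) := by
  rw [lift, pr, ph]; module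

theorem sm_ht : ContDiff ℝ ∞ (ht F X) := (contDiff_fst.sub contDiff_const).inner ℝ contDiff_const

theorem sm_pr : ContDiff ℝ ∞ (pr F X) := contDiff_id.sub (sm_ht.smul contDiff_const)

theorem fd_ht (q w : ST) : fderiv ℝ (ht F X) q w = ⟪w.1, F.n X⟫_ℝ := by
  have h1 : HasFDerivAt (fun q : ST => q.1 - X.1) (ContinuousLinearMap.fst ℝ E ℝ) q :=
    hasFDerivAt_fst.sub_const _
  have := (h1.inner ℝ (hasFDerivAt_const (F.n X) q)).fderiv
  rw [show ht F X = fun q : ST => ⟪q.1 - X.1, F.n X⟫_ℝ from rfl, this]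
  simp

theorem cr_u (h : q ∈ GG F X δ) : Cr F X δ (pr F X q) (uu F X δ q) := Classical.epsilon_spec h

theorem cr_eq (h : Cr F X δ (pr F X q) s) : uu F X δ q = s :=
  h.2.2.2 _ (abs_le.1 (cr_u ⟨s, h⟩).1.le) (subset_closure (cr_u ⟨s, h⟩).2.1)

theorem lift_mem (h : q ∈ GG F X δ) : lift F X δ q ∈ F.M := lift_eq ▸ (cr_u h).2.1

theorem lift_pos (h : q ∈ GG F X δ) : 0 < ⟪F.n (lift F X δ q), F.n X⟫_ℝ :=
  lift_eq ▸ (cr_u h).2.2.1

theorem ev_aux (hF : F.Reg) {L : ST × ℝ → ST} (hL : Continuous L) {ψ : ST → ℝ} {e : E}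
    (a1 : ContinuousAt ψ q) (a3 : ∀ᶠ z in 𝓝 (q, ψ q), L z ∈ F.M ↔ ψ z.1 = z.2) (h1 : |ψ q| < δ)
    (h2 : L (q, ψ q) ∈ F.M) (h3 : 0 < ⟪F.n (L (q, ψ q)), e⟫_ℝ)
    (h4 : ∀ s' ∈ Icc (-δ) δ, L (q, s') ∈ closure F.M → s' = ψ q) :
    ∀ᶠ x in 𝓝 q, |ψ x| < δ ∧ L (x, ψ x) ∈ F.M ∧ 0 < ⟪F.n (L (x, ψ x)), e⟫_ℝ ∧
      ∀ s' ∈ Icc (-δ) δ, L (x, s') ∈ closure F.M → s' = ψ x := by
  have b1 : Tendsto (fun x => ((x, ψ x) : ST × ℝ)) (𝓝 q) (𝓝 (q, ψ q)) :=
    (continuousAt_id.prodMk a1).tendsto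
  have b2 : ∀ᶠ x in 𝓝 q, L (x, ψ x) ∈ F.M := (b1.eventually a3).mono fun x hx => hx.2 rfl
  have b3 : Tendsto (fun x => L (x, ψ x)) (𝓝 q) (𝓝[F.M] (L (q, ψ q))) :=
    tendsto_nhdsWithin_iff.2 ⟨(hL.tendsto _).comp b1, b2⟩
  have b4 := (((hF.sm_n.continuousOn _ h2).tendsto.comp b3).inner (𝕜 := ℝ)
    (tendsto_const_nhds (x := e))).eventually (lt_mem_nhds h3)
  have b6 : ∀ᶠ x in 𝓝 q, ∀ s' ∈ Icc (-δ) δ, L (x, s') ∈ closure F.M → s' = ψ x := by
    refine isCompact_Icc.eventually_forall_of_forall_eventually fun s' hs' => ?_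
    by_cases e : s' = ψ q
    · subst e
      exact (a3.and ((hL.tendsto _).eventually (ev_closure hF h2))).mono fun z c c3 =>
        (c.1.1 (c.2 c3)).symm
    · exact ((hL.tendsto (q, s')).eventually
        (isClosed_closure.isOpen_compl.mem_nhds fun c => e (h4 s' hs' c))).mono fun z c1 c2 =>
        absurd c2 c1
  exact (a1.abs.eventually (gt_mem_nhds h1)).and (b2.and (b4.and b6))

theorem ev_cr (hF : F.Reg) (h : q ∈ GG F X δ) :
    ∃ ψ : ST → ℝ, ContDiffAt ℝ ∞ ψ q ∧ ∀ᶠ x in 𝓝 q, Cr F X δ (pr F X x) (ψ x) := by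
  obtain ⟨s, h1, h2, h3, h4⟩ := h
  obtain ⟨ψ, a1, rfl, a3⟩ := impl hF sm_pr h2 h3.ne'
  exact ⟨ψ, a1, ev_aux hF (L := fun z : ST × ℝ => pr F X z.1 + z.2 • ((F.n X, 0) : ST))
    ((sm_pr.continuous.comp continuous_fst).add (continuous_snd.smul continuous_const))
    a1.continuousAt a3 h1 h2 h3 h4⟩

theorem open_GG (hF : F.Reg) : IsOpen (GG F X δ) := isOpen_iff_mem_nhds.2 fun q hq => by
  obtain ⟨ψ, -, h⟩ := ev_cr hF hq
  exact h.mono fun x hx => ⟨_, hx⟩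

theorem sm_uu (hF : F.Reg) : ContDiffOn ℝ ∞ (uu F X δ) (GG F X δ) := fun q hq => by
  obtain ⟨ψ, h1, h⟩ := ev_cr hF hq
  exact (h1.congr_of_eventuallyEq (h.mono fun x hx => cr_eq hx)).contDiffWithinAt

theorem sm_ph (hF : F.Reg) : ContDiffOn ℝ ∞ (ph F X δ) (GG F X δ) :=
  sm_ht.contDiffOn.sub (sm_uu hF)

theorem sm_lift (hF : F.Reg) : ContDiffOn ℝ ∞ (lift F X δ) (GG F X δ) :=
  contDiffOn_id.sub ((sm_ph hF).smul contDiffOn_const)

theorem diff_ph (hF : F.Reg) (hq : q ∈ GG F X δ) : DifferentiableAt ℝ (ph F X δ) q :=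
  ((sm_ph hF).contDiffAt ((open_GG hF).mem_nhds hq)).differentiableAt (by simp)

theorem has_lift (hF : F.Reg) (hq : q ∈ GG F X δ) : HasFDerivAt (lift F X δ)
    (ContinuousLinearMap.id ℝ ST - (fderiv ℝ (ph F X δ) q).smulRight (F.n X, 0)) q :=
  (hasFDerivAt_id q).sub ((diff_ph hF hq).hasFDerivAt.smul_const _)

theorem ev_lift (hF : F.Reg) (hq : q ∈ GG F X δ) : ∀ᶠ x in 𝓝 q, lift F X δ x ∈ F.M :=
  eventually_of_mem ((open_GG hF).mem_nhds hq) fun _ hx => lift_mem hx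

/-- the derivative of the defining function -/
theorem fd_ph (hF : F.Reg) (hq : q ∈ GG F X δ) (w : ST) : fderiv ℝ (ph F X δ) q w =
    (⟪F.n (lift F X δ q), w.1⟫_ℝ - F.V (lift F X δ q) * w.2) *
      (⟪F.n (lift F X δ q), F.n X⟫_ℝ)⁻¹ := by
  have h1 := tg_of_maps hF (has_lift hF hq) (ev_lift hF hq) w
  have h2 := (lift_pos hq).ne'
  simp only [Mv.Tg, sub_apply, ContinuousLinearMap.id_apply,
    ContinuousLinearMap.smulRight_apply, Prod.fst_sub, Prod.snd_sub, Prod.smul_mk, smul_zero,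
    sub_zero, inner_sub_right, inner_smul_right] at h1
  field_simp
  linarith

/-- chain rule for functions on the track -/
theorem fd_lift (hF : F.Reg) (hq : q ∈ GG F X δ) {f : ST → ℝ} (hf : F.Sm f) (w : ST) :
    fderiv ℝ (fun x => f (lift F X δ x)) q w =
      F.td f (lift F X δ q) (w - fderiv ℝ (ph F X δ) q w • ((F.n X, 0) : ST)) := by
  have h1 := ((hf _ (lift_mem hq)).differentiableWithinAt (by simp)).hasFDerivWithinAt
  have h2 := h1.comp_hasFDerivAt q (has_lift hF hq) (ev_lift hF hq)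
  exact congrArg (fun L : ST →L[ℝ] ℝ => L w) h2.fderiv

theorem sm_comp (hF : F.Reg) {f : ST → ℝ} (hf : F.Sm f) :
    ContDiffOn ℝ ∞ (fun x => f (lift F X δ x)) (GG F X δ) :=
  ContDiffOn.comp hf (sm_lift hF) fun _ hx => lift_mem hx

theorem pr_shift (he : ‖F.n X‖ = 1) (q : ST) (s : ℝ) :
    pr F X (q.1 + s • F.n X, q.2) = pr F X q := by
  have : ht F X (q.1 + s • F.n X, q.2) = ht F X q + s := by
    simp only [ht]
    rw [add_sub_right_comm, inner_add_left, real_inner_smul_left, real_inner_self_eq_norm_sq, he]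
    ring
  rw [pr, pr, this]
  ext1
  · simp only [Prod.fst_sub, Prod.smul_mk]; module
  · simp

theorem uu_shift (he : ‖F.n X‖ = 1) (q : ST) (s : ℝ) :
    uu F X δ (q.1 + s • F.n X, q.2) = uu F X δ q := by rw [uu, uu, pr_shift he]

theorem grad_ph (hF : F.Reg) (hq : q ∈ GG F X δ) : gradX (ph F X δ) q.1 q.2 =
    (⟪F.n (lift F X δ q), F.n X⟫_ℝ)⁻¹ • F.n (lift F X δ q) := by
  refine ext_inner_right ℝ fun v => ?_
  rw [inner_gradX (diff_ph hF hq), fd_ph hF hq, real_inner_smul_left]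
  simp [mul_comm]

/-- the sheet -/
theorem loc_ph (hF : F.Reg) : F.Loc (GG F X δ ∩ {q | |ht F X q| < δ}) (ph F X δ) := by
  have key : ∀ q ∈ GG F X δ ∩ {q | |ht F X q| < δ}, q ∈ F.M ↔ ph F X δ q = 0 := fun q hq => by
    constructor
    · intro hM
      refine sub_eq_zero.2 ((cr_u hq.1).2.2.2 _ (abs_le.1 (le_of_lt hq.2)) ?_)
      rw [pr, sub_add_cancel]; exact subset_closure hM
    · intro h0
      have := lift_mem hq.1
      rwa [lift, h0, zero_smul, sub_zero] at this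
  refine loc_of hF ((open_GG hF).inter (isOpen_lt sm_ht.continuous.abs continuous_const))
    ((sm_ph hF).mono inter_subset_left) key (F.n X) (fun q hq => ?_) fun q hq hM => ?_
  · rw [grad_ph hF hq.1, real_inner_smul_left, inv_mul_cancel₀ (lift_pos hq.1).ne']
    exact one_pos
  · have := lift_pos hq.1
    rwa [lift, (key q hq).1 hM, zero_smul, sub_zero] at this

theorem Hy.core (h : Hy F X δ) (hq : q ∈ PC X (δ / 2)) : q ∈ GG F X δ ∧ |ht F X q| < δ ∧
    |ph F X δ q| ≤ 2 * δ ∧ 24 / 25 ≤ ⟪F.n (lift F X δ q), F.n X⟫_ℝ ∧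
      lift F X δ q ∈ PC X (25 * δ) := by
  have hδ := h.pos
  have h1 : ‖q.1 - X.1‖ < δ / 2 := mem_ball_iff_norm.1 hq.1
  have h2 : q.2 ∈ TT X δ := ⟨by nlinarith [hq.2.1], hq.2.2⟩
  have h3 : |ht F X q| < δ := by
    have := abs_real_inner_le_norm (q.1 - X.1) (F.n X)
    rw [h.unit] at this
    exact this.trans_lt (by linarith)
  set w := q.1 - X.1 - ht F X q • F.n X with hw
  have h4 : ⟪w, F.n X⟫_ℝ = 0 := by
    rw [hw, inner_sub_left, real_inner_smul_left, h.reg.inner_n h.mem, ht]; ring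
  have h5 : ‖w‖ ≤ δ := by
    have := h.pyth h4 (ht F X q)
    rw [hw, sub_add_cancel, ← hw] at this
    refine le_of_pow_le_pow_left₀ two_ne_zero hδ.le ?_
    nlinarith [norm_nonneg (q.1 - X.1), sq_nonneg (ht F X q)]
  have h6 : ∀ s : ℝ, pr F X q + s • ((F.n X, 0) : ST) = (X.1 + w + s • F.n X, q.2) := fun s => by
    rw [pr, hw]
    ext1
    · simp only [Prod.fst_add, Prod.fst_sub, Prod.smul_mk]; module
    · simp
  obtain ⟨s, a1, a2, a3, a4⟩ := h.line h4 h5 h2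
  have h7 : Cr F X δ (pr F X q) s := by
    simp only [Cr, h6]
    exact ⟨a1, a2, lt_of_lt_of_le (by norm_num) a3, a4⟩
  rw [lift_eq, ph, cr_eq h7, h6]
  exact ⟨⟨s, h7⟩, h3, (abs_sub _ _).trans (by linarith), a3,
    h.pc (by linarith) ((h.near (by linarith) a1.le).trans_lt (by linarith)) h2⟩

theorem Hy.grad_uu (h : Hy F X δ) (hq : q ∈ PC X (δ / 2)) :
    ‖gradX (uu F X δ) q.1 q.2‖ ≤ 1 / 2 := by
  obtain ⟨h1, -, -, h2, -⟩ := h.core hq
  have hd : DifferentiableAt ℝ (uu F X δ) q :=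
    ((sm_uu h.reg).contDiffAt ((open_GG h.reg).mem_nhds h1)).differentiableAt (by simp)
  set a := ⟪F.n (lift F X δ q), F.n X⟫_ℝ with ha
  have h3 : gradX (uu F X δ) q.1 q.2 = F.n X - a⁻¹ • F.n (lift F X δ q) := by
    rw [ha, ← grad_ph h.reg h1]
    refine ext_inner_right ℝ fun v => ?_
    rw [inner_sub_left, inner_gradX hd, inner_gradX (diff_ph h.reg h1),
      show ph F X δ = ht F X - uu F X δ from rfl,
      fderiv_sub (sm_ht.differentiable (by simp) q) hd, sub_apply, fd_ht,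
      real_inner_comm]
    simp
  have h4 : 0 < a := lt_of_lt_of_le (by norm_num) h2
  have h5 : a⁻¹ ≤ 25 / 24 := by rw [inv_le_comm₀ h4 (by norm_num)]; linarith
  refine le_of_pow_le_pow_left₀ two_ne_zero (by norm_num) ?_
  rw [h3, norm_sub_sq_real, inner_smul_right, real_inner_comm, ← ha, inv_mul_cancel₀ h4.ne',
    norm_smul, h.unit, h.reg.norm_n (lift_mem h1), Real.norm_of_nonneg (by positivity)]
  nlinarith [inv_pos.2 h4]

end Crest.Agent.N250.Gr

end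
end

-- ▼ part N250/Gr/Alg
section

/-!
# Row 250, graphs (helper2), part 4: uniform jet bounds for families by closure properties
-/

set_option autoImplicit false
open Set Filter Topology
open scoped ContDiff

noncomputable section

namespace Crest.Agent.N250.Gr

variable {ι Y : Type} [NormedAddCommGroup Y] [NormedSpace ℝ Y] {U B : ι → Set Y}
  {P : (ι → Y → ℝ) → Prop} {f g : ι → Y → ℝ} {D : Set Y} {v : Y}

/-- directional derivative of a family -/
def pd (v : Y) (f : ι → Y → ℝ) : ι → Y → ℝ := fun i q => fderiv ℝ (f i) q v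

/-- an algebra of smooth families -/
structure Good (U : ι → Set Y) (P : (ι → Y → ℝ) → Prop) : Prop where
  op : ∀ i, IsOpen (U i)
  sm : ∀ {f}, P f → ∀ i, ContDiffOn ℝ ∞ (f i) (U i)
  add : ∀ {f g}, P f → P g → P fun i q => f i q + g i q
  mul : ∀ {f g}, P f → P g → P fun i q => f i q * g i q
  const : ∀ (c : ι → ℝ) (C : ℝ), (∀ i, |c i| ≤ C) → P fun i _ => c i
  congr : ∀ {f g}, P f → (∀ i, ∀ q ∈ U i, g i q = f i q) → P g

/-- smooth on `U`, bounded on `B` -/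
def Bd (U B : ι → Set Y) (f : ι → Y → ℝ) : Prop :=
  (∀ i, ContDiffOn ℝ ∞ (f i) (U i)) ∧ ∃ C, ∀ i, ∀ q ∈ B i, |f i q| ≤ C

/-- `m` derivatives in the directions `D` stay in `P` -/
def It (P : (ι → Y → ℝ) → Prop) (D : Set Y) : ℕ → (ι → Y → ℝ) → Prop
  | 0, f => P f
  | m + 1, f => P f ∧ ∀ v ∈ D, It P D m (pd v f)

/-- all derivatives in the directions `D` stay in `P` -/
def All (P : (ι → Y → ℝ) → Prop) (D : Set Y) (f : ι → Y → ℝ) : Prop := ∀ m, It P D m f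

theorem good_Bd (hU : ∀ i, IsOpen (U i)) (hB : ∀ i, B i ⊆ U i) : Good U (Bd U B) where
  op := hU
  sm h := h.1
  add := fun ⟨a, C, b⟩ ⟨c, C', d⟩ => ⟨fun i => (a i).add (c i), C + C', fun i q hq =>
    (abs_add_le _ _).trans (add_le_add (b i q hq) (d i q hq))⟩
  mul := fun ⟨a, C, b⟩ ⟨c, C', d⟩ => ⟨fun i => (a i).mul (c i), C * C', fun i q hq =>
    (abs_mul _ _).trans_le (mul_le_mul (b i q hq) (d i q hq) (abs_nonneg _)
      ((abs_nonneg _).trans (b i q hq)))⟩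
  const _ C h := ⟨fun _ => contDiffOn_const, C, fun i _ _ => h i⟩
  congr := fun ⟨a, C, b⟩ h => ⟨fun i => (a i).congr (h i), C, fun i q hq =>
    h i q (hB i hq) ▸ b i q hq⟩

theorem It.base {m : ℕ} (h : It P D m f) : P f := by
  cases m with
  | zero => exact h
  | succ m => exact h.1

theorem It.down {m : ℕ} (h : It P D (m + 1) f) : It P D m f := by
  induction m generalizing f with
  | zero => exact h.1
  | succ m ih => exact ⟨h.1, fun v hv => ih (h.2 v hv)⟩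

theorem All.pd (h : All P D f) (hv : v ∈ D) : All P D (pd v f) := fun m => (h (m + 1)).2 v hv

theorem All.intro (h : P f) (hd : ∀ v ∈ D, All P D (Gr.pd v f)) : All P D f
  | 0 => h
  | m + 1 => ⟨h, fun v hv => hd v hv m⟩

namespace Good

variable (G : Good U P)
include G

theorem diff (h : P f) {i : ι} {q : Y} (hq : q ∈ U i) : DifferentiableAt ℝ (f i) q :=
  ((G.sm h i).contDiffAt ((G.op i).mem_nhds hq)).differentiableAt (by simp)

theorem pd_congr (h : ∀ i, ∀ q ∈ U i, g i q = f i q) (v : Y) :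
    ∀ i, ∀ q ∈ U i, pd v g i q = pd v f i q := fun i q hq => by
  simp only [pd]
  rw [Filter.EventuallyEq.fderiv_eq (eventually_of_mem ((G.op i).mem_nhds hq) (h i))]

theorem pd_mul (hf : P f) (hg : P g) (v : Y) : ∀ i, ∀ q ∈ U i,
    pd v (fun i q => f i q * g i q) i q = pd v f i q * g i q + f i q * pd v g i q := fun i q hq => by
  simp only [pd]
  rw [fderiv_fun_mul (G.diff hf hq) (G.diff hg hq)]
  simp only [add_apply, smul_apply, smul_eq_mul]; ring

theorem it_congr {m : ℕ} (hf : It P D m f) (h : ∀ i, ∀ q ∈ U i, g i q = f i q) : It P D m g := by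
  induction m generalizing f g with
  | zero => exact G.congr hf h
  | succ m ih => exact ⟨G.congr hf.1 h, fun v hv => ih (hf.2 v hv) (G.pd_congr h v)⟩

theorem it_add {m : ℕ} (hf : It P D m f) (hg : It P D m g) :
    It P D m fun i q => f i q + g i q := by
  induction m generalizing f g with
  | zero => exact G.add hf hg
  | succ m ih =>
    refine ⟨G.add hf.1 hg.1, fun v hv => G.it_congr (ih (hf.2 v hv) (hg.2 v hv)) fun i q hq => ?_⟩
    simp only [pd]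
    rw [fderiv_fun_add (G.diff hf.1 hq) (G.diff hg.1 hq)]; rfl

theorem it_mul {m : ℕ} (hf : It P D m f) (hg : It P D m g) :
    It P D m fun i q => f i q * g i q := by
  induction m generalizing f g with
  | zero => exact G.mul hf hg
  | succ m ih =>
    exact ⟨G.mul hf.1 hg.1, fun v hv => G.it_congr
      (G.it_add (ih (hf.2 v hv) hg.down) (ih hf.down (hg.2 v hv))) (G.pd_mul hf.1 hg.1 v)⟩

theorem it_const (m : ℕ) (c : ι → ℝ) (C : ℝ) (h : ∀ i, |c i| ≤ C) :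
    It P D m fun i _ => c i := by
  induction m generalizing c C with
  | zero => exact G.const c C h
  | succ m ih =>
    exact ⟨G.const c C h, fun v _ => G.it_congr (ih (fun _ => 0) 0 fun _ => by simp)
      fun i q _ => by simp [pd]⟩

theorem it (D : Set Y) (m : ℕ) : Good U (It P D m) :=
  ⟨G.op, fun h => G.sm h.base, G.it_add, G.it_mul, G.it_const m, G.it_congr⟩

theorem all (D : Set Y) : Good U (All P D) :=
  ⟨G.op, fun h => G.sm (h 0), fun a b m => G.it_add (a m) (b m), fun a b m => G.it_mul (a m) (b m),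
    fun c C h m => G.it_const m c C h, fun a h m => G.it_congr (a m) h⟩

theorem num (c : ℝ) : P fun _ _ => c := G.const (fun _ => c) |c| fun _ => le_rfl

theorem neg (h : P f) : P fun i q => -f i q := G.congr (G.mul (G.num (-1)) h) fun _ _ _ => by ring

theorem sub (hf : P f) (hg : P g) : P fun i q => f i q - g i q :=
  G.congr (G.add hf (G.neg hg)) fun _ _ _ => by ring

theorem sum {κ : Type} (s : Finset κ) {f : κ → ι → Y → ℝ} (h : ∀ k ∈ s, P (f k)) :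
    P fun i q => ∑ k ∈ s, f k i q := by
  classical
  induction s using Finset.induction_on with
  | empty => simpa using G.num 0
  | insert a s ha ih =>
    exact G.congr (G.add (h a (by simp)) (ih fun k hk => h k (by simp [hk])))
      fun _ _ _ => Finset.sum_insert ha

theorem pd_comm (h : P f) (v w : Y) : ∀ i, ∀ q ∈ U i,
    pd v (pd w f) i q = pd w (pd v f) i q := fun i q hq => by
  have h1 := (G.sm h i).contDiffAt ((G.op i).mem_nhds hq)
  have h2 : DifferentiableAt ℝ (fderiv ℝ (f i)) q :=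
    (h1.fderiv_right (m := ∞) (by simp)).differentiableAt (by simp)
  have h3 : ∀ a b : Y, pd a (pd b f) i q = fderiv ℝ (fderiv ℝ (f i)) q a b := fun a b => by
    change fderiv ℝ (fun x => fderiv ℝ (f i) x b) q a = _
    rw [fderiv_clm_apply h2 (differentiableAt_const b)]; simp
  rw [h3, h3]
  exact ((h1.of_le (m := 2) (WithTop.coe_le_coe.2 le_top)).isSymmSndFDerivAt (by simp)).eq v w

/-- a derivative that preserves `P` preserves the iterated classes -/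
theorem it_pd (hv : ∀ {f}, P f → P (pd v f)) {m : ℕ} (h : It P D m f) : It P D m (pd v f) := by
  induction m generalizing f with
  | zero => exact hv h
  | succ m ih => exact ⟨hv h.1, fun w hw => G.it_congr (ih (h.2 w hw)) (G.pd_comm h.1 w v)⟩

theorem pd_inv {r c : ι → Y → ℝ} (hr : P r) (hc : P c) (h1 : ∀ i, ∀ q ∈ U i, c i q * r i q = 1)
    (v : Y) : ∀ i, ∀ q ∈ U i, pd v c i q = -(c i q * c i q * pd v r i q) := fun i q hq => by
  have := (G.pd_mul hc hr v i q hq).symm.trans (G.pd_congr (f := fun _ _ => 1) h1 v i q hq)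
  have h0 : pd v (fun (_ : ι) (_ : Y) => (1 : ℝ)) i q = 0 := by simp [pd]
  linear_combination c i q * this + c i q * h0 - pd v c i q * h1 i q hq

theorem it_inv {r c : ι → Y → ℝ} (hc : P c) (h1 : ∀ i, ∀ q ∈ U i, c i q * r i q = 1) {m : ℕ}
    (hr : It P D m r) : It P D m c := by
  induction m with
  | zero => exact hc
  | succ m ih =>
    exact ⟨hc, fun v hv => G.it_congr ((G.it D m).neg
      (G.it_mul (G.it_mul (ih hr.down) (ih hr.down)) (hr.2 v hv))) (G.pd_inv hr.1 hc h1 v)⟩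

/-- `r = √Q` with inverse `c` -/
theorem it_sqrt {Q r c : ι → Y → ℝ} (hr : P r) (hc : P c) (h1 : ∀ i, ∀ q ∈ U i, c i q * r i q = 1)
    (h2 : ∀ i, ∀ q ∈ U i, r i q * r i q = Q i q) {m : ℕ} (hQ : It P D m Q) : It P D m r := by
  induction m with
  | zero => exact hr
  | succ m ih =>
    refine ⟨hr, fun v hv => G.it_congr (G.it_mul (G.it_mul (hQ.2 v hv)
      (G.it_inv hc h1 (ih hQ.down))) ((G.it D m).num 2⁻¹)) fun i q hq => ?_⟩
    rw [← G.pd_congr h2 v i q hq, G.pd_mul hr hr v i q hq]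
    linear_combination (-pd v r i q) * h1 i q hq

/-- a class of bounded families that is stable under all partial derivatives has bounded jets -/
theorem jets (hB : ∀ i, B i ⊆ U i) (hb : ∀ {f}, P f → ∃ C, ∀ i, ∀ q ∈ B i, |f i q| ≤ C)
    {κ : Type} [Fintype κ] (b : κ → Y) (l : κ → Y →L[ℝ] ℝ) (hl : ∀ y, y = ∑ k, l k y • b k)
    (hv : ∀ k, ∀ {f}, P f → P (pd (b k) f)) (m : ℕ) (h : P f) :
    ∃ C, ∀ i, ∀ q ∈ B i, ‖iteratedFDeriv ℝ m (f i) q‖ ≤ C := by
  induction m generalizing f with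
  | zero => simpa using hb h
  | succ m ih =>
    choose C hC using fun k => ih (hv k h)
    refine ⟨∑ k, ‖l k‖ * C k, fun i q hq => ?_⟩
    have hq' := (G.op i).mem_nhds (hB i hq)
    have h1 : fderiv ℝ (f i) = ∑ k, (ContinuousLinearMap.toSpanSingleton ℝ (l k)) ∘
        pd (b k) f i := by
      ext x y
      conv_lhs => rw [hl y]
      simp [pd, mul_comm]
    have h2 : ∀ k, ContDiffAt ℝ m (pd (b k) f i) q := fun k =>
      ((G.sm (hv k h) i).contDiffAt hq').of_le (by exact_mod_cast le_top)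
    rw [← norm_iteratedFDeriv_fderiv, h1, iteratedFDeriv_sum_apply fun k _ =>
      (ContinuousLinearMap.toSpanSingleton ℝ (l k)).contDiff.contDiffAt.comp q (h2 k)]
    refine (norm_sum_le _ _).trans (Finset.sum_le_sum fun k _ => ?_)
    refine (ContinuousLinearMap.norm_iteratedFDeriv_comp_left _ (h2 k) le_rfl).trans ?_
    rw [ContinuousLinearMap.norm_toSpanSingleton]
    exact mul_le_mul_of_nonneg_left (hC k i q hq) (norm_nonneg _)

end Good

end Crest.Agent.N250.Gr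

end
end

-- ▼ part N250/Gr/Sheet

/-!
# Row 250, graphs (helper2), part 5: all spacetime jets of the sheet; `SheetS`
-/

set_option autoImplicit false
open Set Filter Topology Metric
open scoped ContDiff InnerProductSpace
open Crest.GeometryTopology.MCF

noncomputable section

namespace Crest.Agent.N250.Gr

variable {F : Mv} {X p q : ST} {δ : ℝ}

theorem spd_of (hR : ReachAS) (hF : F.IsMCF) (hp : p ∈ F.M) {ρ : ℝ} (hρ : 0 < ρ)
    (h : F.Reach p ρ) : |F.V p| < 4 / ρ := by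
  have h1 : ∀ a, |F.A a a p| ≤ 1 / ρ := fun a => by
    simpa [Pi.single_apply] using (hR F hF.1 p hp ρ hρ h).1 (Pi.single a 1)
  have h2 := Finset.abs_sum_le_sum_abs (fun a => F.A a a p) Finset.univ
  rw [hF.2 p hp, abs_neg, Mv.H, Finset.sum_apply]
  rw [Fin.sum_univ_three fun a => |F.A a a p|] at h2
  have h3 : 4 / ρ = 4 * (1 / ρ) := by ring
  linarith [h1 0, h1 1, h1 2, one_div_pos.2 hρ]

theorem hy_of (hR : ReachAS) (hδ : 0 < δ) (hF : F.IsMCF) (hX : X ∈ F.M)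
    (hP : F.Proper (PC X (100 * δ))) (h : ∀ p ∈ F.M ∩ PC X (100 * δ), F.Reach p (100 * δ)) :
    Hy F X δ :=
  ⟨hF.1, hδ, hX, hP, h, fun p hp => (spd_of hR hF hp.1 (by positivity) (h p hp)).trans_eq (by
    field_simp; norm_num)⟩

theorem pc_mono {r r' : ℝ} (h0 : 0 ≤ r) (h : r ≤ r') : PC X r ⊆ PC X r' :=
  prod_mono (ball_subset_ball h) (Ioc_subset_Ioc_left (by gcongr))

theorem sum_nu (hF : F.Reg) (hp : p ∈ F.M) : ∑ a, F.nu a p * F.nu a p = 1 := by
  rw [← hF.inner_n hp, inner_eq_sum]; rfl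

theorem sum_nu_D (hF : F.Reg) (hp : p ∈ F.M) (f : ST → ℝ) : ∑ a, F.nu a p * F.D a f p = 0 := by
  have := Tr.td_PL (F := F) f p (F.n p)
  rw [Mv.PL, hF.inner_n hp, one_smul, sub_self, Prod.mk_zero_zero, map_zero] at this
  exact this.symm

theorem fd_ph_sp (hF : F.Reg) (hq : q ∈ GG F X δ) (b : Fin 3) : fderiv ℝ (ph F X δ) q (ee b, 0) =
    F.nu b (lift F X δ q) * (⟪F.n (lift F X δ q), F.n X⟫_ℝ)⁻¹ := by
  rw [fd_ph hF hq, inner_ee, mul_zero, sub_zero]; rfl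

theorem fd_lift_sp (hF : F.Reg) (hq : q ∈ GG F X δ) {f : ST → ℝ} (hf : F.Sm f) (b : Fin 3) :
    fderiv ℝ (fun x => f (lift F X δ x)) q (ee b, 0) = F.D b f (lift F X δ q) -
      F.nu b (lift F X δ q) * (⟪F.n (lift F X δ q), F.n X⟫_ℝ)⁻¹ *
        ∑ c, F.n X c * F.D c f (lift F X δ q) := by
  rw [fd_lift hF hq hf, fd_ph_sp hF hq, ← Tr.td_PL, Tr.D_def, ← smul_eq_mul _ (F.td _ _ _), ← map_smul,
    ← map_sub]
  congr 1
  have h := (lift_pos hq).ne'
  ext1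
  · simp only [Prod.fst_sub, Prod.smul_mk, Mv.PL, inner_ee, Mv.nu, smul_sub, smul_smul]
    rw [mul_assoc, inv_mul_cancel₀ h]; module
  · simp

/-- all flows with the hypotheses at scale `δ` -/
def Ix (δ : ℝ) : Type := {z : Mv × ST // z.1.IsMCF ∧ Hy z.1 z.2 δ}

section Fam

variable (δ)

/-- jets of the normal over the tangent plane -/
def gN (w : List (Fin 3)) (a : Fin 3) : Ix δ → ST → ℝ :=
  fun i q => i.1.1.DL w (i.1.1.nu a) (lift i.1.1 i.1.2 δ q)

/-- cosine of the tilt -/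
def gC : Ix δ → ST → ℝ := fun i q => ⟪i.1.1.n (lift i.1.1 i.1.2 δ q), i.1.1.n i.1.2⟫_ℝ

/-- bounded smooth families -/
abbrev P0 : (Ix δ → ST → ℝ) → Prop :=
  Bd (fun i => GG i.1.1 i.1.2 δ) fun i => PC i.1.2 (δ / 2)

/-- spatial directions -/
abbrev Ds : Set ST := range fun b : Fin 3 => (ee b, 0)

theorem G0 : Good (fun i : Ix δ => GG i.1.1 i.1.2 δ) (P0 δ) :=
  good_Bd (fun i => open_GG i.2.1.1) fun i _ hq => (i.2.2.core hq).1

variable {δ}

theorem abs_e (a : Fin 3) (i : Ix δ) : |i.1.1.n i.1.2 a| ≤ 1 :=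
  (PiLp.norm_apply_le (i.1.1.n i.1.2) a).trans_eq i.2.2.unit

theorem gC_of {P : (Ix δ → ST → ℝ) → Prop} (G : Good (fun i : Ix δ => GG i.1.1 i.1.2 δ) P)
    (h : ∀ a, P (gN δ [] a)) : P (gC δ) :=
  G.congr (G.sum Finset.univ fun a _ => G.mul (h a) (G.const _ 1 (abs_e a)))
    fun _ _ _ => inner_eq_sum _ _

theorem gC_inv (i : Ix δ) (q : ST) (hq : q ∈ GG i.1.1 i.1.2 δ) : (gC δ i q)⁻¹ * gC δ i q = 1 :=
  inv_mul_cancel₀ (lift_pos hq).ne'

theorem p0_gN (hR : ReachAS) (hB : BernS) (w : List (Fin 3)) (a : Fin 3) : P0 δ (gN δ w a) := by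
  obtain ⟨C, hC⟩ := hB w.length
  refine ⟨fun i => sm_comp i.2.1.1 (Tr.sm_DL i.2.1.1 (Tr.sm_nu i.2.1.1 a) w),
    C / (50 * δ) ^ w.length, fun ⟨⟨F, X⟩, hF, h⟩ q hq => ?_⟩
  have hδ := h.pos
  have hs : PC X (50 * δ) ⊆ PC X (100 * δ) := pc_mono (by positivity) (by linarith)
  obtain ⟨h1, -, -, -, h2⟩ := h.core hq
  refine hC F X (50 * δ) hF (by positivity) (fun p hp h' => h.prop p hp (hs h')) (fun p hp => ?_) _
    ⟨lift_mem h1, by rwa [show 50 * δ / 2 = 25 * δ by ring]⟩ a w rfl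
  refine (hR F hF.1 p hp.1 _ (by positivity) (h.reach p ⟨hp.1, hs hp.2⟩)).2.trans ?_
  rw [div_le_div_iff₀ (by positivity) (by positivity)]
  nlinarith [mul_pos hδ hδ]

theorem p0_inv (h : P0 δ (gC δ)) : P0 δ fun i q => (gC δ i q)⁻¹ := by
  refine ⟨fun i => (h.1 i).inv fun q hq => (lift_pos hq).ne', 25 / 24, fun i q hq => ?_⟩
  obtain ⟨h1, -, -, h2, -⟩ := i.2.2.core hq
  simp only [gC]
  rw [abs_of_pos (inv_pos.2 (lift_pos h1)), inv_le_comm₀ (lift_pos h1) (by norm_num)]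
  exact le_trans (by norm_num) h2

theorem pd_gN (w : List (Fin 3)) (a b : Fin 3) (i : Ix δ) (q : ST) (hq : q ∈ GG i.1.1 i.1.2 δ) :
    pd (ee b, 0) (gN δ w a) i q = gN δ (b :: w) a i q -
      gN δ [] b i q * (gC δ i q)⁻¹ * ∑ c, i.1.1.n i.1.2 c * gN δ (c :: w) a i q :=
  fd_lift_sp i.2.1.1 hq (Tr.sm_DL i.2.1.1 (Tr.sm_nu i.2.1.1 a) w) b

variable (h0 : ∀ w a, P0 δ (gN δ w a))
include h0

theorem p1_gN (w : List (Fin 3)) (a : Fin 3) : All (P0 δ) Ds (gN δ w a) := by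
  intro m
  induction m generalizing w a with
  | zero => exact h0 w a
  | succ m ih =>
    refine ⟨h0 w a, ?_⟩
    rintro _ ⟨b, rfl⟩
    have G := (G0 δ).it Ds m
    have hr := (G0 δ).it_inv (p0_inv (gC_of (G0 δ) (h0 []))) gC_inv (gC_of G (ih []))
    exact G.congr (G.sub (ih _ _) (G.mul (G.mul (ih _ _) hr) (G.sum Finset.univ fun c _ =>
      G.mul (G.const _ 1 (abs_e c)) (ih (c :: w) a)))) (pd_gN w a b)

theorem p1_gC : All (P0 δ) Ds (gC δ) := gC_of ((G0 δ).all Ds) (p1_gN h0 [])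

theorem p1_inv : All (P0 δ) Ds fun i q => (gC δ i q)⁻¹ := fun m =>
  (G0 δ).it_inv (p0_inv (p1_gC h0 0)) gC_inv (p1_gC h0 m)

theorem p1_ph : All (P0 δ) Ds fun i : Ix δ => ph i.1.1 i.1.2 δ := by
  refine All.intro ⟨fun i => sm_ph i.2.1.1, 2 * δ, fun i q hq => (i.2.2.core hq).2.2.1⟩ ?_
  rintro _ ⟨b, rfl⟩
  exact ((G0 δ).all Ds).congr (((G0 δ).all Ds).mul (p1_gN h0 [] b) (p1_inv h0))
    fun i q hq => fd_ph_sp i.2.1.1 hq b

theorem p2_ph : All (All (P0 δ) Ds) {(0, 1)} fun i : Ix δ => ph i.1.1 i.1.2 δ := by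
  intro k
  induction k with
  | zero => exact p1_ph h0
  | succ k ih =>
    refine ⟨p1_ph h0, ?_⟩
    rintro _ rfl
    have G1 := (G0 δ).all Ds
    have G := G1.it {(0, 1)} k
    have hd : ∀ (b : Fin 3) {f : Ix δ → ST → ℝ}, It (All (P0 δ) Ds) {(0, 1)} k f →
        It (All (P0 δ) Ds) {(0, 1)} k (pd (ee b, 0) f) := fun b f hf =>
      G1.it_pd (fun h => h.pd ⟨b, rfl⟩) hf
    have e1 : ∀ b (i : Ix δ), ∀ q ∈ GG i.1.1 i.1.2 δ,
        pd (ee b, 0) (fun i : Ix δ => ph i.1.1 i.1.2 δ) i q = gN δ [] b i q * (gC δ i q)⁻¹ :=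
      fun b i q hq => fd_ph_sp i.2.1.1 hq b
    have e2 : ∀ i : Ix δ, ∀ q ∈ GG i.1.1 i.1.2 δ, ∑ b, gN δ [] b i q * gN δ [] b i q = 1 :=
      fun i q hq => sum_nu i.2.1.1 (lift_mem hq)
    have e3 : ∀ i : Ix δ, ∀ q ∈ GG i.1.1 i.1.2 δ, gC δ i q * (gC δ i q)⁻¹ = 1 :=
      fun i q hq => (mul_comm _ _).trans (gC_inv i q hq)
    have hr := G1.it_sqrt (p1_inv h0) (p1_gC h0) e3 (fun i q hq => ?_)
      (G.sum Finset.univ fun b _ => G.mul (hd b ih) (hd b ih))
    swap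
    · simp only [e1 _ i q hq, Fin.sum_univ_three]
      have := e2 i q hq
      rw [Fin.sum_univ_three] at this
      linear_combination (-(gC δ i q)⁻¹ * (gC δ i q)⁻¹) * this
    have hc := G1.it_inv (p1_gC h0) e3 hr
    have hn : ∀ b, It (All (P0 δ) Ds) {(0, 1)} k (gN δ [] b) := fun b =>
      G.congr (G.mul (hd b ih) hc) fun i q hq => by
        rw [e1 b i q hq, mul_assoc, gC_inv i q hq, mul_one]
    have hA : ∀ b a, It (All (P0 δ) Ds) {(0, 1)} k (gN δ [b] a) := fun b a =>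
      G.congr (G.sub (hd b (hn a)) (G.mul (hn b) (G.sum Finset.univ fun c _ =>
        G.mul (hn c) (hd c (hn a))))) fun i q hq => by
        have h1 := e2 i q hq
        have h2 : ∑ c, gN δ [] c i q * gN δ [c] a i q = 0 := sum_nu_D i.2.1.1 (lift_mem hq) _
        simp only [pd_gN _ _ _ i q hq]
        generalize ∑ c, i.1.1.n i.1.2 c * gN δ [c] a i q = S
        rw [Fin.sum_univ_three] at h1 h2 ⊢
        linear_combination gN δ [] b i q * h2 - gN δ [] b i q * (gC δ i q)⁻¹ * S * h1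
    refine G.congr (G.mul (G.sum Finset.univ fun a _ => hA a a) hr) fun i q hq => ?_
    refine (fd_ph i.2.1.1 hq _).trans ?_
    rw [i.2.1.2 _ (lift_mem hq), inner_zero_right, Mv.H, Finset.sum_apply, mul_one, zero_sub,
      neg_neg]
    rfl

omit h0

theorem p2_ht : All (All (P0 δ) Ds) {(0, 1)} fun i : Ix δ => ht i.1.1 i.1.2 := by
  have G1 := (G0 δ).all Ds
  refine All.intro (All.intro ⟨fun i => sm_ht.contDiffOn, δ, fun i q hq =>
    (i.2.2.core hq).2.1.le⟩ ?_) ?_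
  · rintro _ ⟨b, rfl⟩
    exact G1.congr (G1.const _ 1 (abs_e b)) fun i q _ =>
      (fd_ht _ _).trans ((real_inner_comm _ _).trans (inner_ee _ _))
  · rintro _ rfl
    exact (G1.all _).congr ((G1.all _).num 0) fun i q _ => (fd_ht _ _).trans (inner_zero_left _)

theorem p2_jets {f : Ix δ → ST → ℝ} (hf : All (All (P0 δ) Ds) {(0, 1)} f) (m : ℕ) :
    ∃ C, ∀ i : Ix δ, ∀ q ∈ PC i.1.2 (δ / 2), ‖iteratedFDeriv ℝ m (f i) q‖ ≤ C := by
  have G1 := (G0 δ).all Ds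
  refine (G1.all _).jets (fun i _ hq => (i.2.2.core hq).1) (fun h => (h 0 0).2)
    (fun k : Option (Fin 3) => k.elim ((0, 1) : ST) fun b => (ee b, 0))
    (fun k => k.elim (ContinuousLinearMap.snd ℝ E ℝ) fun b =>
      (EuclideanSpace.proj b : E →L[ℝ] ℝ).comp (ContinuousLinearMap.fst ℝ E ℝ))
    (fun y => ?_) ?_ m hf
  · rw [Fintype.sum_option]
    ext1
    · simpa [Prod.fst_sum] using eq_sum_ee y.1
    · simp [Prod.snd_sum]
  · rintro (_ | b) f hf
    · exact hf.pd rfl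
    · exact fun k => G1.it_pd (fun h => h.pd ⟨b, rfl⟩) (hf k)

end Fam

/-- jets of the height function and of the defining function at scale `δ` -/
theorem jets (hR : ReachAS) (hB : BernS) (δ : ℝ) : ∃ C : ℕ → ℝ, ∀ (F : Mv) (X : ST), F.IsMCF →
    Hy F X δ → ∀ m, ∀ q ∈ PC X (δ / 2),
      ‖iteratedFDeriv ℝ m (uu F X δ) q‖ ≤ C m ∧ ‖iteratedFDeriv ℝ m (ph F X δ) q‖ ≤ C m := by
  have h1 := p2_ph (δ := δ) (p0_gN hR hB)
  have G := ((G0 δ).all Ds).all {(0, 1)}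
  have h2 : All (All (P0 δ) Ds) {(0, 1)} fun i : Ix δ => uu i.1.1 i.1.2 δ :=
    G.congr (G.sub p2_ht h1) fun _ _ _ => by simp [ph]
  choose C hC using p2_jets h1
  choose C' hC' using p2_jets h2
  exact ⟨fun m => max (C m) (C' m), fun F X hF h m q hq =>
    ⟨(hC' m ⟨(F, X), hF, h⟩ q hq).trans (le_max_right _ _),
      (hC m ⟨(F, X), hF, h⟩ q hq).trans (le_max_left _ _)⟩⟩

/-- `SheetS` at scale `ρ` -/
theorem sheet (hR : ReachAS) (hB : BernS) {ρ : ℝ} (hρ : 0 < ρ) : ∃ C : ℕ → ℝ, ∀ (F : Mv) (X : ST),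
    F.IsMCF → X ∈ F.M → F.Proper (PC X ρ) → (∀ p ∈ F.M ∩ PC X ρ, F.Reach p ρ) →
    ∃ (W : Set ST) (u : ST → ℝ), PC X (ρ / 200) ⊆ W ∧
      F.Loc W (fun p => ⟪p.1 - X.1, F.n X⟫_ℝ - u p) ∧
      (∀ (p : ST) (s : ℝ), u (p.1 + s • F.n X, p.2) = u p) ∧
      (∀ p ∈ PC X (ρ / 200), ‖gradX u p.1 p.2‖ ≤ 1 / 2) ∧
      ∀ m, ∀ p ∈ PC X (ρ / 200), ‖iteratedFDeriv ℝ m u p‖ ≤ C m ∧
        ‖iteratedFDeriv ℝ m (fun p : ST => ⟪p.1 - X.1, F.n X⟫_ℝ - u p) p‖ ≤ C m := by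
  obtain ⟨δ, rfl⟩ : ∃ δ, ρ = 100 * δ := ⟨ρ / 100, by ring⟩
  obtain ⟨C, hC⟩ := jets hR hB δ
  refine ⟨C, fun F X hF hX hP hr => ?_⟩
  have h := hy_of hR (by linarith) hF hX hP hr
  rw [show 100 * δ / 200 = δ / 2 by ring]
  exact ⟨_, uu F X δ, fun q hq => mem_inter (h.core hq).1 (h.core hq).2.1, loc_ph hF.1,
    uu_shift h.unit, fun q hq => h.grad_uu hq, hC F X hF h⟩

theorem sheetS_of (hR : ReachAS) (hB : BernS) : SheetS := by
  obtain ⟨C, hC⟩ := sheet hR hB one_pos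
  refine ⟨1 / 200, C, by norm_num, fun F X hF hX hP hr => ?_⟩
  obtain ⟨W, u, h1, h2, h3, h4, h5⟩ := hC F X hF hX hP hr
  exact ⟨W, u, h1, h2, h3, h4, fun m p hp => (h5 m p hp).1⟩

end Crest.Agent.N250.Gr

end
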